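import Vale.Agent.P201.Congr.Magnus

/-!
# The rational group algebra of a free group and its augmentation filtration
-/

namespace Vale.Agent.P201.Congr

open MonoidAlgebra

variable {α : Type*}

/-- The rational group algebra of the free group on `α`. -/
abbrev QF (α : Type*) := MonoidAlgebra ℚ (FreeGroup α)

/-- The coefficient functions of the Magnus expansion of an element of the group algebra. -/
noncomputable def coe' : QF α →ₗ[ℚ] (List α → ℚ) :=
  (Finsupp.linearCombination ℚ fun g => (magnus g : Ser α).co).comp
    (MonoidAlgebra.coeffLinearEquiv ℚ).toLinearMap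

/-- The Magnus expansion of an element of the group algebra. -/
noncomputable def expand (z : QF α) : Ser α := ⟨coe' z⟩

lemma expand_single (g : FreeGroup α) (r : ℚ) :
    expand (single g r) = Ser.sc r (magnus g : Ser α) := by
  ext v
  simp [expand, coe', Ser.sc, coeff_single]

lemma expand_one : expand (1 : QF α) = 1 := by
  rw [MonoidAlgebra.one_def, expand_single, map_one, Units.val_one]
  ext v; simp [Ser.sc]

lemma expand_add (z y : QF α) : expand (z + y) = expand z + expand y :=
  Ser.ext (map_add coe' z y)

lemma expand_sub (z y : QF α) : expand (z - y) = expand z - expand y := by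
  ext v; simp [expand]

lemma expand_zero : expand (0 : QF α) = 0 := Ser.ext (map_zero coe')

lemma expand_smul (r : ℚ) (z : QF α) : expand (r • z) = Ser.sc r (expand z) :=
  Ser.ext (map_smul coe' r z)

lemma expand_mul (z y : QF α) : expand (z * y) = expand z * expand y := by
  induction z using MonoidAlgebra.induction_linear with
  | zero => simp [expand_zero]
  | add a b ha hb => rw [add_mul, expand_add, expand_add, ha, hb, add_mul]
  | single g r =>
    induction y using MonoidAlgebra.induction_linear with
    | zero => simp [expand_zero]
    | add a b ha hb => rw [mul_add, expand_add, expand_add, ha, hb, mul_add]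
    | single h s =>
      rw [single_mul_single, expand_single, expand_single, expand_single, Ser.sc_mul, map_mul,
        Units.val_mul]
      have hr : ∀ (f g : Ser α), f * Ser.sc s g = Ser.sc s (f * g) := by
        intro f g
        ext v
        simp only [Ser.sc, Ser.co_mul]
        induction v generalizing f with
        | nil => simp [Ser.conv]; ring
        | cons a v ih => simp only [Ser.conv]; rw [ih ⟨fun t => f.co (a :: t)⟩]; ring
      rw [hr]
      ext v; simp [Ser.sc, mul_assoc]

/-- `g - 1`. -/
noncomputable def dif (g : FreeGroup α) : QF α := single g 1 - 1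

lemma expand_dif (g : FreeGroup α) : expand (dif g) = (magnus g : Ser α) - 1 := by
  rw [dif, expand_sub, expand_single, expand_one]
  congr 1
  ext v; simp [Ser.sc]

lemma expand_dif_of (a : α) : expand (dif (FreeGroup.of a)) = letter a := by
  rw [expand_dif, magnus_of, add_sub_cancel_left]

/-- The powers of the augmentation ideal. -/
noncomputable def aug : ℕ → Submodule ℚ (QF α)
  | 0 => ⊤
  | d + 1 => Submodule.span ℚ {x | ∃ g, ∃ y ∈ aug d, x = dif g * y}

lemma dif_mul_mem {d : ℕ} (g : FreeGroup α) {y : QF α} (hy : y ∈ aug d) :
    dif g * y ∈ aug (d + 1) :=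
  Submodule.subset_span ⟨g, y, hy, rfl⟩

lemma dif_mem (g : FreeGroup α) : dif g ∈ aug 1 := by
  simpa using dif_mul_mem g (y := (1 : QF α)) (show (1 : QF α) ∈ aug 0 from trivial)

lemma mul_mem_aug_left : ∀ (d : ℕ) (z y : QF α), y ∈ aug d → z * y ∈ aug d := by
  intro d
  induction d with
  | zero => intros; trivial
  | succ d ih =>
    intro z y hy
    induction hy using Submodule.span_induction with
    | mem x hx =>
      obtain ⟨h, y', hy', rfl⟩ := hx
      induction z using MonoidAlgebra.induction_linear with
      | zero => rw [zero_mul]; exact Submodule.zero_mem _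
      | add a b ha hb => rw [add_mul]; exact Submodule.add_mem _ ha hb
      | single g r =>
        have : single g r * (dif h * y') = dif (g * h * g⁻¹) * (single g r * y') := by
          rw [← mul_assoc, ← mul_assoc]
          congr 1
          simp [dif, mul_sub, sub_mul, single_mul_single, MonoidAlgebra.one_def]
        rw [this]
        exact dif_mul_mem _ (ih _ _ hy')
    | zero => rw [mul_zero]; exact Submodule.zero_mem _
    | add a b _ _ ha hb => rw [mul_add]; exact Submodule.add_mem _ ha hb
    | smul c a _ ha => rw [mul_smul_comm]; exact Submodule.smul_mem _ c ha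

lemma aug_succ_le (d : ℕ) : (aug (d + 1) : Submodule ℚ (QF α)) ≤ aug d :=
  Submodule.span_le.mpr fun _ ⟨g, y, hy, hx⟩ => hx ▸ mul_mem_aug_left d _ _ hy

lemma mul_mem_aug : ∀ (i j : ℕ) (z y : QF α), z ∈ aug i → y ∈ aug j → z * y ∈ aug (i + j) := by
  intro i
  induction i with
  | zero => intro j z y _ hy; rw [zero_add]; exact mul_mem_aug_left j z y hy
  | succ i ih =>
    intro j z y hz hy
    induction hz using Submodule.span_induction with
    | mem x hx =>
      obtain ⟨g, z', hz', rfl⟩ := hx
      rw [mul_assoc, Nat.succ_add]
      exact dif_mul_mem g (ih j z' y hz' hy)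
    | zero => rw [zero_mul]; exact Submodule.zero_mem _
    | add a b _ _ ha hb => rw [add_mul]; exact Submodule.add_mem _ ha hb
    | smul c a _ ha => rw [smul_mul_assoc]; exact Submodule.smul_mem _ c ha

lemma expand_eq_zero_of_mem : ∀ (d : ℕ) (z : QF α), z ∈ aug d →
    ∀ v : List α, v.length < d → (expand z).co v = 0 := by
  intro d
  induction d with
  | zero => intro z _ v hv; omega
  | succ d ih =>
    intro z hz
    induction hz using Submodule.span_induction with
    | mem x hx =>
      obtain ⟨g, y, hy, rfl⟩ := hx
      intro v hv
      rw [expand_mul]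
      have hnil : (expand (dif g)).co [] = 0 := by
        rw [expand_dif, Ser.co_sub, (magnus_props g).1, Ser.co_one_nil, sub_self]
      cases v with
      | nil => rw [Ser.co_mul_nil, hnil, zero_mul]
      | cons a v =>
        rw [Ser.co_mul_cons, hnil, zero_mul, zero_add]
        exact Ser.mul_eq_zero_of_length _ _ d (ih y hy) v (Nat.lt_of_succ_lt_succ hv)
    | zero => intro v _; rw [expand_zero, Ser.co_zero]
    | add a b _ _ ha hb => intro v hv; rw [expand_add, Ser.co_add, ha v hv, hb v hv, add_zero]
    | smul c a _ ha =>
      intro v hv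
      show (expand (c • a)).co v = 0
      rw [expand_smul]
      simp [Ser.sc, ha v hv]

/-- The monomials in the `x - 1`. -/
noncomputable def mono (w : List α) : QF α := (w.map fun a => dif (FreeGroup.of a)).prod

lemma mono_cons (a : α) (w : List α) : mono (a :: w) = dif (FreeGroup.of a) * mono w := by
  simp [mono]

lemma mono_mem : ∀ w : List α, mono w ∈ aug w.length
  | [] => trivial
  | a :: w => by rw [mono_cons]; exact dif_mul_mem _ (mono_mem w)

open Classical in
lemma expand_mono : ∀ (w v : List α), (expand (mono w)).co v = if v = w then 1 else 0 := by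
  intro w
  induction w with
  | nil =>
    intro v
    rw [show mono ([] : List α) = 1 from rfl, expand_one]
    cases v <;> simp
  | cons a w ih =>
    intro v
    rw [mono_cons, expand_mul, expand_dif_of]
    cases v with
    | nil => simp [Ser.co_mul_nil, letter_nil]
    | cons b v =>
      rw [Ser.co_mul_cons, letter_nil, zero_mul, zero_add]
      by_cases hb : b = a
      · subst hb
        rw [show (⟨fun t => (letter b).co (b :: t)⟩ : Ser α) = 1 by
          ext t; cases t <;> simp [letter], one_mul, ih]
        simp
      · rw [show (⟨fun t => (letter a).co (b :: t)⟩ : Ser α) = 0 by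
          ext t; simp [letter, hb], zero_mul, Ser.co_zero, if_neg (by simp [hb])]

lemma dif_mem_sup (g : FreeGroup α) :
    dif g ∈ Submodule.span ℚ (mono '' {w : List α | w.length = 1}) ⊔ aug 2 := by
  induction g using FreeGroup.induction_on with
  | C1 =>
    rw [show dif (1 : FreeGroup α) = 0 by simp [dif, MonoidAlgebra.one_def]]
    exact Submodule.zero_mem _
  | of a =>
    exact Submodule.mem_sup_left (Submodule.subset_span ⟨[a], rfl, by simp [mono]⟩)
  | inv_of a ha =>
    have e : dif ((FreeGroup.of a)⁻¹) =
        -dif (FreeGroup.of a) - dif ((FreeGroup.of a)⁻¹) * dif (FreeGroup.of a) := by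
      simp [dif, mul_sub, sub_mul, single_mul_single, MonoidAlgebra.one_def]
    show dif ((FreeGroup.of a)⁻¹) ∈ _
    rw [e]
    exact Submodule.sub_mem _ (Submodule.neg_mem _ ha)
      (Submodule.mem_sup_right (mul_mem_aug 1 1 _ _ (dif_mem _) (dif_mem _)))
  | mul x y hx hy =>
    have e : dif (x * y) = dif x + dif y + dif x * dif y := by
      simp [dif, mul_sub, sub_mul, single_mul_single, MonoidAlgebra.one_def]
      abel
    rw [e]
    exact Submodule.add_mem _ (Submodule.add_mem _ hx hy)
      (Submodule.mem_sup_right (mul_mem_aug 1 1 _ _ (dif_mem _) (dif_mem _)))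

lemma aug_le_sup : ∀ d, (aug d : Submodule ℚ (QF α)) ≤
    Submodule.span ℚ (mono '' {w : List α | w.length = d}) ⊔ aug (d + 1) := by
  intro d
  induction d with
  | zero =>
    intro z _
    induction z using MonoidAlgebra.induction_linear with
    | zero => exact Submodule.zero_mem _
    | add a b ha hb => exact Submodule.add_mem _ (ha trivial) (hb trivial)
    | single g r =>
      have e : single g r = r • (1 : QF α) + r • dif g := by
        simp [dif, smul_sub, smul_single]
      rw [e]
      exact Submodule.add_mem _
        (Submodule.mem_sup_left (Submodule.smul_mem _ r (Submodule.subset_span ⟨[], rfl, rfl⟩)))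
        (Submodule.mem_sup_right (Submodule.smul_mem _ r (dif_mem g)))
  | succ d ih =>
    refine Submodule.span_le.mpr ?_
    rintro _ ⟨g, y, hy, rfl⟩
    obtain ⟨u, hu, z, hz, hgz⟩ := Submodule.mem_sup.mp (dif_mem_sup g)
    obtain ⟨u', hu', z', hz', hyz⟩ := Submodule.mem_sup.mp (ih hy)
    have hu'd : u' ∈ aug d := by
      refine (Submodule.span_le.mpr ?_) hu'
      rintro _ ⟨w, hw, rfl⟩
      exact hw ▸ mono_mem w
    have hu1 : u ∈ aug 1 := by
      refine (Submodule.span_le.mpr ?_) hu
      rintro _ ⟨w, hw, rfl⟩
      exact hw ▸ mono_mem w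
    rw [SetLike.mem_coe, ← hgz, ← hyz, add_mul, mul_add]
    refine Submodule.add_mem _ (Submodule.add_mem _ (Submodule.mem_sup_left ?_)
      (Submodule.mem_sup_right ?_)) (Submodule.mem_sup_right ?_)
    · clear hgz hyz hu1 hu'd hy
      induction hu using Submodule.span_induction with
      | mem x hx =>
        obtain ⟨w, hw, rfl⟩ := hx
        obtain ⟨a, rfl⟩ := List.length_eq_one_iff.mp hw
        induction hu' using Submodule.span_induction with
        | mem x hx =>
          obtain ⟨w', hw', rfl⟩ := hx
          refine Submodule.subset_span ⟨a :: w', by simpa using hw', ?_⟩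
          simp [mono]
        | zero => rw [mul_zero]; exact Submodule.zero_mem _
        | add a b _ _ ha hb => rw [mul_add]; exact Submodule.add_mem _ ha hb
        | smul c a _ ha => rw [mul_smul_comm]; exact Submodule.smul_mem _ c ha
      | zero => rw [zero_mul]; exact Submodule.zero_mem _
      | add a b _ _ ha hb => rw [add_mul]; exact Submodule.add_mem _ ha hb
      | smul c a _ ha => rw [smul_mul_assoc]; exact Submodule.smul_mem _ c ha
    · rw [show d + 1 + 1 = 1 + (d + 1) by omega]
      exact mul_mem_aug 1 (d + 1) _ _ hu1 hz'
    · have hy' : u' + z' ∈ aug d := Submodule.add_mem _ hu'd (aug_succ_le d hz')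
      rw [show d + 1 + 1 = 2 + d by omega]
      exact mul_mem_aug 2 d _ _ hz hy'

/-- Every element is a combination of short monomials modulo a power of the augmentation ideal,
with the Magnus coefficients as coefficients. -/
lemma exists_mono_approx (z : QF α) (d : ℕ) :
    ∃ r : List α →₀ ℚ, (∀ w ∈ r.support, w.length < d) ∧
      z - Finsupp.linearCombination ℚ mono r ∈ aug d ∧
      ∀ w, w.length < d → r w = (expand z).co w := by
  classical
  have hall : ∀ d, (⊤ : Submodule ℚ (QF α)) ≤
      Submodule.span ℚ (mono '' {w : List α | w.length < d}) ⊔ aug d := by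
    intro d
    induction d with
    | zero => exact le_sup_of_le_right le_rfl
    | succ d ih =>
      have h1 : {w : List α | w.length < d} ⊆ {w : List α | w.length < d + 1} := fun w hw => by
        simp only [Set.mem_setOf_eq] at hw ⊢; omega
      have h2 : {w : List α | w.length = d} ⊆ {w : List α | w.length < d + 1} := fun w hw => by
        simp only [Set.mem_setOf_eq] at hw ⊢; omega
      refine ih.trans (sup_le (le_sup_of_le_left (Submodule.span_mono (Set.image_mono h1))) ?_)
      exact (aug_le_sup d).trans (sup_le_sup_right (Submodule.span_mono (Set.image_mono h2)) _)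
  obtain ⟨u, hu, y, hy, huy⟩ := Submodule.mem_sup.mp (hall d (Submodule.mem_top (x := z)))
  obtain ⟨r, hr, hru⟩ := (Finsupp.mem_span_image_iff_linearCombination _).mp hu
  have hz : z - Finsupp.linearCombination ℚ mono r ∈ aug d := by
    rw [hru, ← huy, add_sub_cancel_left]; exact hy
  refine ⟨r, fun w hw => Finsupp.mem_supported _ r |>.mp hr hw, hz, fun w hw => ?_⟩
  have h := expand_eq_zero_of_mem d _ hz w hw
  rw [expand_sub, Ser.co_sub, sub_eq_zero] at h
  rw [h]
  show r w = coe' (Finsupp.linearCombination ℚ mono r) w
  rw [Finsupp.apply_linearCombination ℚ coe' mono r, Finsupp.linearCombination_apply,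
    Finsupp.sum, Finset.sum_apply]
  simp only [Pi.smul_apply, smul_eq_mul, Function.comp_apply]
  rw [Finset.sum_eq_single w]
  · rw [show coe' (mono w) w = (expand (mono w)).co w from rfl, expand_mono, if_pos rfl, mul_one]
  · intro b _ hb
    rw [show coe' (mono b) w = (expand (mono b)).co w from rfl, expand_mono, if_neg (Ne.symm hb),
      mul_zero]
  · intro hw'
    rw [Finsupp.notMem_support_iff.mp hw', zero_mul]

end Vale.Agent.P201.Congr
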