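import Mathlib

/-!
# Binomial coefficients modulo a prime as functions
-/

namespace Vale.Agent.P201.Congr

open Finset

variable {p : ℕ} [Fact p.Prime] {K : Type*} [Field K] [CharP K p]

/-- One step of Lucas' theorem, in the field `K`. -/
lemma cast_choose_lucas (n k : ℕ) :
    (n.choose k : K) = ((n % p).choose (k % p) : K) * ((n / p).choose (k / p) : K) := by
  rw [← Nat.cast_mul]
  exact (CharP.natCast_eq_natCast K p).mpr Choose.choose_modEq_choose_mod_mul_choose_div_nat

/-- `C(a, k)` in characteristic `p` only depends on `a` modulo a larger power of `p`. -/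
lemma cast_choose_congr {s : ℕ} : ∀ {a b k : ℕ}, a ≡ b [MOD p ^ s] → k < p ^ s →
    (a.choose k : K) = (b.choose k : K) := by
  induction s with
  | zero => intro a b k _ hk; simp at hk; simp [hk]
  | succ s ih =>
    intro a b k h hk
    have hp := (Fact.out : p.Prime).pos
    rw [cast_choose_lucas (p := p) a, cast_choose_lucas (p := p) b,
      show a % p = b % p from (h.of_dvd (dvd_pow_self p s.succ_ne_zero) :)]
    congr 1
    refine ih ?_ ?_
    · rw [pow_succ'] at h
      show a / p % p ^ s = b / p % p ^ s
      rw [← Nat.mod_mul_right_div_self, ← Nat.mod_mul_right_div_self, h]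
    · rw [pow_succ'] at hk
      exact Nat.div_lt_of_lt_mul hk

/-- `C(p ^ e * n, j)` in characteristic `p`. -/
lemma cast_choose_pow_mul (e : ℕ) : ∀ n j : ℕ,
    ((p ^ e * n).choose j : K) = if p ^ e ∣ j then (n.choose (j / p ^ e) : K) else 0 := by
  have hp := (Fact.out : p.Prime).pos
  induction e with
  | zero => intro n j; simp
  | succ e ih =>
    intro n j
    rw [cast_choose_lucas (p := p), pow_succ', mul_assoc, Nat.mul_mod_right,
      Nat.mul_div_cancel_left _ hp]
    by_cases hj : p ∣ j
    · obtain ⟨l, rfl⟩ := hj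
      rw [Nat.mul_mod_right, Nat.choose_zero_right, Nat.cast_one, one_mul,
        Nat.mul_div_cancel_left _ hp, ih, ← Nat.div_div_eq_div_mul, Nat.mul_div_cancel_left _ hp]
      simp only [Nat.mul_dvd_mul_iff_left hp]
    · rw [Nat.choose_eq_zero_of_lt (Nat.pos_of_ne_zero fun h => hj (Nat.dvd_of_mod_eq_zero h)),
        Nat.cast_zero, zero_mul, if_neg fun h => hj ((dvd_mul_right p _).trans h)]

/-- Binomial coefficients at powers of `p` separate residues modulo a power of `p`. -/
lemma exists_choose_pow_ne {s : ℕ} : ∀ {a b : ℕ}, ¬ a ≡ b [MOD p ^ s] →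
    ∃ e < s, (a.choose (p ^ e) : K) ≠ (b.choose (p ^ e) : K) := by
  have hp := (Fact.out : p.Prime)
  induction s with
  | zero => intro a b h; exact absurd Nat.modEq_one h
  | succ s ih =>
    intro a b h
    by_cases h0 : a % p = b % p
    · obtain ⟨e, he, hne⟩ : ∃ e < s, ((a / p).choose (p ^ e) : K) ≠ ((b / p).choose (p ^ e) : K) := by
        refine ih fun hd => h ?_
        show a % p ^ (s + 1) = b % p ^ (s + 1)
        rw [pow_succ', Nat.mod_mul, Nat.mod_mul, h0, hd]
      refine ⟨e + 1, by omega, ?_⟩
      rwa [cast_choose_lucas (p := p) a, cast_choose_lucas (p := p) b, pow_succ',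
        Nat.mul_mod_right, Nat.mul_div_cancel_left _ hp.pos, Nat.choose_zero_right,
        Nat.choose_zero_right, Nat.cast_one, one_mul, one_mul]
    · refine ⟨0, s.succ_pos, ?_⟩
      simp only [pow_zero, Nat.choose_one_right]
      rwa [Ne, CharP.natCast_eq_natCast K p]

/-- A product of two binomial coefficient functions is a combination of binomial functions. -/
lemma exists_choose_mul : ∀ n i j, i + j = n → ∃ c : ℕ → ℕ,
    ∀ x : ℕ, x.choose i * x.choose j = ∑ l ∈ range (n + 1), c l * x.choose l := by
  intro n
  induction n using Nat.strong_induction_on with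
  | _ n ih =>
  intro i j hij
  rcases i with _ | i
  · refine ⟨fun l => if l = j then 1 else 0, fun x => ?_⟩
    rw [Finset.sum_eq_single j] <;> simp +contextual
    omega
  rcases j with _ | j
  · refine ⟨fun l => if l = i + 1 then 1 else 0, fun x => ?_⟩
    rw [Finset.sum_eq_single (i + 1)] <;> simp +contextual
    omega
  obtain ⟨m, rfl⟩ : ∃ m, n = m + 2 := ⟨i + j, by omega⟩
  obtain ⟨a, ha⟩ := ih (m + 1) (by omega) i (j + 1) (by omega)
  obtain ⟨b, hb⟩ := ih (m + 1) (by omega) (i + 1) j (by omega)
  obtain ⟨d, hd⟩ := ih m (by omega) i j (by omega)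
  let c : ℕ → ℕ := fun l => match l with
    | 0 => 0
    | l + 1 => a l + b l + if l < m + 1 then d l else 0
  refine ⟨c, fun x => ?_⟩
  induction x with
  | zero => rw [Finset.sum_range_succ']; simp [c]
  | succ x hx =>
    have hd' : ∑ l ∈ range (m + 2), (if l < m + 1 then d l else 0) * x.choose l =
        x.choose i * x.choose j := by
      rw [hd, Finset.sum_range_succ, if_neg (lt_irrefl _), zero_mul, add_zero]
      exact Finset.sum_congr rfl fun l hl => by rw [if_pos (Finset.mem_range.mp hl)]
    rw [Finset.sum_range_succ', Nat.choose_succ_succ' x i, Nat.choose_succ_succ' x j]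
    rw [Finset.sum_range_succ'] at hx
    simp only [c, zero_mul, add_zero, Nat.choose_succ_succ', mul_add, add_mul, sum_add_distrib]
      at hx ⊢
    rw [hd', ← ha x, ← hb x]
    linarith

end Vale.Agent.P201.Congr
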