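import Mathlib

/-!
# From characteristic `p` to characteristic zero
-/

namespace Vale.Agent.P201.Congr

open Finset

variable {G : Type*} [Group G]

/-- No zero divisors in characteristic `p` implies none in characteristic zero. -/
theorem noZeroDivisors_charZero.{u} (p : ℕ) [Fact p.Prime]
    (h : ∀ (k : Type u) [Field k] [CharP k p], NoZeroDivisors (MonoidAlgebra k G))
    (K : Type u) [Field K] [CharZero K] : NoZeroDivisors (MonoidAlgebra K G) := by
  classical
  have hI : Ideal.span {(⟨(p : K), natCast_mem _ p⟩ : (⊥ : Subring K))} ≠ ⊤ := by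
    rw [Ne, Ideal.span_singleton_eq_top]
    intro hu
    obtain ⟨⟨x, hx⟩, hxp⟩ := hu.exists_right_inv
    obtain ⟨n, rfl⟩ := Subring.mem_bot.mp hx
    have h1 : (p : K) * (n : K) = 1 := congrArg Subtype.val hxp
    have h2 : (p : ℤ) * n = 1 := by exact_mod_cast h1
    have h3 : (p : ℤ).natAbs = 1 := Int.natAbs_eq_iff.mpr (Int.eq_one_or_neg_one_of_mul_eq_one h2)
    exact (Fact.out : p.Prime).ne_one (by simpa using h3)
  obtain ⟨V, -, hV⟩ := Ideal.image_subset_nonunits_valuationSubring _ hI
  have hp : (p : K) ∈ V.nonunits :=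
    hV ⟨_, Ideal.subset_span (Set.mem_singleton _), rfl⟩
  let k := IsLocalRing.ResidueField V
  have : CharP k p := by
    refine (CharP.charP_iff_prime_eq_zero Fact.out).mpr ?_
    rw [← map_natCast (IsLocalRing.residue V), IsLocalRing.residue_eq_zero_iff]
    obtain ⟨⟨x, hx⟩, hmem, hxp⟩ : (p : K) ∈ ((↑) : V → K) '' (IsLocalRing.maximalIdeal V : Set V) := by
      rw [V.image_maximalIdeal]; exact hp
    have : ((p : ℕ) : V) = ⟨x, hx⟩ := Subtype.ext (by simpa using hxp.symm)
    rw [this]; exact hmem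
  have := h k
  -- normalisation
  have norm : ∀ a : MonoidAlgebra K G, a ≠ 0 → ∃ (c : K) (a' : MonoidAlgebra V G), c ≠ 0 ∧
      MonoidAlgebra.mapRingHom G V.subtype a' = c • a ∧
      MonoidAlgebra.mapRingHom G (IsLocalRing.residue V) a' ≠ 0 := by
    intro a ha
    have hne : a.coeff.support.Nonempty :=
      Finsupp.support_nonempty_iff.mpr fun h => ha (MonoidAlgebra.coeff_eq_zero.1 h)
    obtain ⟨g₀, hg₀, hmax⟩ := exists_max_image a.coeff.support (fun g => V.valuation (a.coeff g)) hne
    have hg₀' : a.coeff g₀ ≠ 0 := Finsupp.mem_support_iff.mp hg₀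
    have hmem : ∀ g, (a.coeff g₀)⁻¹ * a.coeff g ∈ V := by
      intro g
      rw [← V.valuation_le_one_iff, map_mul, map_inv₀]
      by_cases hg : g ∈ a.coeff.support
      · rw [inv_mul_le_iff₀ (by rw [zero_lt_iff]; exact (V.valuation.ne_zero_iff).mpr hg₀'), mul_one]
        exact hmax g hg
      · rw [Finsupp.notMem_support_iff.mp hg, map_zero, mul_zero]
        exact zero_le
    let a' : MonoidAlgebra V G := ∑ g ∈ a.coeff.support,
      MonoidAlgebra.single g (⟨_, hmem g⟩ : V)
    have hcoeff : ∀ g, (a'.coeff g : K) = (a.coeff g₀)⁻¹ * a.coeff g := by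
      intro g
      simp only [a', MonoidAlgebra.coeff_sum, Finsupp.finset_sum_apply,
        MonoidAlgebra.coeff_single, Finsupp.single_apply, sum_ite_eq']
      split_ifs with hg
      · rfl
      · rw [Finsupp.notMem_support_iff.mp hg, mul_zero]; rfl
    refine ⟨(a.coeff g₀)⁻¹, a', inv_ne_zero hg₀', ?_, fun hz => ?_⟩
    · ext g
      simp [MonoidAlgebra.coeff_mapRingHom, hcoeff]
    · have h1 := congrArg (fun z : MonoidAlgebra k G => z.coeff g₀) hz
      simp only [MonoidAlgebra.coeff_mapRingHom, MonoidAlgebra.coeff_zero, Finsupp.coe_zero,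
        Pi.zero_apply] at h1
      have h2 : a'.coeff g₀ = 1 := Subtype.ext (by rw [hcoeff, inv_mul_cancel₀ hg₀']; rfl)
      rw [h2, map_one] at h1
      exact one_ne_zero h1
  refine ⟨fun {a b} hab => ?_⟩
  by_contra hne
  rw [not_or] at hne
  obtain ⟨c, a', hc, ha, ha0⟩ := norm a hne.1
  obtain ⟨d, b', hd, hb, hb0⟩ := norm b hne.2
  have h0 : a' * b' = 0 := by
    have hinj : Function.Injective (MonoidAlgebra.mapRingHom G V.subtype) :=
      MonoidAlgebra.map_injective V.subtype.toAddMonoidHom Subtype.val_injective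
    apply hinj
    rw [map_mul, map_zero, ha, hb, smul_mul_smul_comm, hab, smul_zero]
  exact (mul_ne_zero ha0 hb0) (by rw [← map_mul, h0, map_zero])

end Vale.Agent.P201.Congr
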