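import Vale.Agent.P201.Congr.Magnus

/-!
# Cyclic coefficients of Magnus expansions
-/

namespace Vale.Agent.P201.Congr

open Finset

variable {α : Type*}

/-- The sum of the coefficient over all rotations of a word. -/
def cyc (f : Ser α) (v : List α) : ℚ := ∑ j ∈ range v.length, f.co (v.rotate j)

namespace Ser

lemma co_mul_eq_sum (f g : Ser α) (v : List α) :
    (f * g).co v = ∑ i ∈ range (v.length + 1), f.co (v.take i) * g.co (v.drop i) := by
  induction v generalizing f with
  | nil => simp [co_mul_nil]
  | cons a v ih =>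
    rw [co_mul_cons, ih ⟨fun t => f.co (a :: t)⟩, List.length_cons, sum_range_succ' _ (v.length + 1)]
    simp [add_comm]

end Ser

lemma sum_rotate_shift (v : List α) (F : List α → ℚ) (i : ℕ) :
    ∑ j ∈ range v.length, F (v.rotate (j + i)) = ∑ j ∈ range v.length, F (v.rotate j) := by
  induction i with
  | zero => simp
  | succ i ih =>
    rw [← ih]
    have h : F (v.rotate (v.length + i)) = F (v.rotate (0 + i)) := by
      rw [← List.rotate_rotate, List.rotate_length, zero_add]
    have h1 := sum_range_succ (fun j => F (v.rotate (j + i))) v.length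
    have h2 := sum_range_succ' (fun j => F (v.rotate (j + i))) v.length
    simp only [h] at h1
    rw [h1] at h2
    simp only [show ∀ j, j + 1 + i = j + (i + 1) from fun j => by omega] at h2
    linarith

/-- The cyclic coefficients form a trace. -/
lemma cyc_mul_comm (f g : Ser α) (v : List α) : cyc (f * g) v = cyc (g * f) v := by
  set n := v.length with hn
  have e : ∀ (f g : Ser α), cyc (f * g) v =
      ∑ i ∈ range (n + 1), ∑ j ∈ range n, f.co ((v.rotate j).take i) * g.co ((v.rotate j).drop i) := by
    intro f g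
    simp only [cyc, Ser.co_mul_eq_sum, List.length_rotate, ← hn]
    exact sum_comm
  have swap : ∀ i ∈ range (n + 1), ∀ j,
      f.co ((v.rotate j).take i) * g.co ((v.rotate j).drop i) =
        g.co ((v.rotate (j + i)).take (n - i)) * f.co ((v.rotate (j + i)).drop (n - i)) := by
    intro i hi j
    have hi' : i ≤ (v.rotate j).length := by
      rw [List.length_rotate, ← hn]; exact Nat.lt_succ_iff.mp (mem_range.mp hi)
    have hrot : v.rotate (j + i) = (v.rotate j).drop i ++ (v.rotate j).take i := by
      rw [← List.rotate_rotate, List.rotate_eq_drop_append_take hi']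
    have hlen : ((v.rotate j).drop i).length = n - i := by
      rw [List.length_drop, List.length_rotate, ← hn]
    rw [hrot, ← hlen, List.take_left, List.drop_left, mul_comm]
  rw [e f g, e g f, sum_congr rfl fun i hi => sum_congr rfl fun j _ => swap i hi j,
    sum_congr rfl fun i _ =>
      sum_rotate_shift v (fun l => g.co (l.take (n - i)) * f.co (l.drop (n - i))) i]
  exact sum_range_reflect (fun i => ∑ j ∈ range n,
    g.co ((v.rotate j).take i) * f.co ((v.rotate j).drop i)) (n + 1)

lemma cyc_conj (u g : FreeGroup α) (v : List α) :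
    cyc (magnus (u * g * u⁻¹) : Ser α) v = cyc (magnus g : Ser α) v := by
  rw [map_mul, map_mul, Units.val_mul, Units.val_mul, cyc_mul_comm, ← mul_assoc, ← Units.val_mul,
    ← map_mul, inv_mul_cancel, map_one, Units.val_one, one_mul]

lemma cyc_singleton (f : Ser α) (a : α) : cyc f [a] = f.co [a] := by simp [cyc]

/-- At a word without repetition of length the number of runs, only the run letters count. -/
lemma magnus_runs_exact : ∀ l, IsRuns l → ∀ v : List α, v.IsChain (· ≠ ·) →
    v.length = l.length → v ≠ l.map Prod.fst → (magnus (runProd l) : Ser α).co v = 0 := by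
  intro l
  induction l with
  | nil =>
    intro _ v _ hv hne
    exact absurd (List.length_eq_zero_iff.mp hv) hne
  | cons x t ih =>
    obtain ⟨a, n⟩ := x
    intro hl v hv hlen hne
    have ht : IsRuns t := ⟨hl.1.tail, fun x hx => hl.2 x (by simp [hx])⟩
    obtain ⟨hA, hAa⟩ := magnus_zpow a n
    set f := (magnus (FreeGroup.of a ^ n) : Ser α)
    have hf : (magnus (runProd ((a, n) :: t)) : Ser α) = f * (magnus (runProd t) : Ser α) := by
      simp [runProd, f]
    set g := (magnus (runProd t) : Ser α)
    rw [hf]
    cases v with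
    | nil => simp at hlen
    | cons c v =>
      simp only [List.length_cons, Nat.succ.injEq] at hlen
      have hbig : g.co (c :: v) = 0 := (magnus_runs t ht).2 _ hv (by simp; omega)
      by_cases hc : c = a
      · subst hc
        have hA' : Ser.OnlyLetter c (⟨fun u => f.co (c :: u)⟩ : Ser α) := by
          rintro u ⟨b, hb, hne'⟩
          exact hA _ ⟨b, by simp [hb], hne'⟩
        have hhead : v.head? ≠ some c := by
          cases v with
          | nil => simp
          | cons d v =>
            have := (List.isChain_cons_cons.mp hv).1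
            simpa using fun h => this h.symm
        rw [Ser.co_mul_cons, hbig, mul_zero, zero_add, Ser.mul_other_letter hA' g v hhead,
          ih ht v hv.tail hlen fun h => hne (by simp [h]), mul_zero]
      · rw [Ser.mul_other_letter hA g _ (by simpa using hc), hbig, mul_zero]

/-- The run form of a cyclically reduced word: at least two runs, and first and last letters
differ. -/
def IsCyclicRuns (l : List (α × ℤ)) : Prop :=
  IsRuns l ∧ ∀ x ∈ l.getLast?, ∀ y ∈ l.head?, x.1 ≠ y.1

lemma isChain_rotate_fst {l : List (α × ℤ)} (hl : IsCyclicRuns l) (j : ℕ) :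
    ((l.map Prod.fst).rotate j).IsChain (· ≠ ·) := by
  have key : ∀ (L : List α), L.IsChain (· ≠ ·) → (∀ x ∈ L.getLast?, ∀ y ∈ L.head?, x ≠ y) →
      ∀ i, i ≤ L.length → (L.drop i ++ L.take i).IsChain (· ≠ ·) := by
    intro L hL hc i hi
    refine List.IsChain.append (hL.drop i) (hL.take i) fun x hx y hy => ?_
    rcases Nat.eq_zero_or_pos i with rfl | hi0
    · simp at hy
    · by_cases hlt : i < L.length
      · refine hc x ?_ y ?_
        · rw [List.getLast?_drop, if_neg (by omega)] at hx; exact hx
        · rwa [List.head?_take, if_neg (by omega)] at hy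
      · rw [List.drop_eq_nil_of_le (by omega)] at hx; simp at hx
  have h1 : (l.map Prod.fst).IsChain (· ≠ ·) := (List.isChain_map Prod.fst).mpr hl.1.1
  have h2 : ∀ x ∈ (l.map Prod.fst).getLast?, ∀ y ∈ (l.map Prod.fst).head?, x ≠ y := by
    simp only [List.getLast?_map, List.head?_map, Option.mem_def, Option.map_eq_some_iff]
    rintro _ ⟨x, hx, rfl⟩ _ ⟨y, hy, rfl⟩
    exact hl.2 x hx y hy
  rcases Nat.eq_zero_or_pos (l.map Prod.fst).length with h0 | h0
  · rw [List.length_eq_zero_iff.mp h0]; simp
  rw [← List.rotate_mod, List.rotate_eq_drop_append_take (Nat.mod_lt _ h0).le]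
  exact key _ h1 h2 _ (Nat.mod_lt _ h0).le

/-- A cyclically reduced word with at least two runs shows in a cyclic coefficient of its length. -/
lemma cyc_runs_ne_zero {l : List (α × ℤ)} (hl : IsCyclicRuns l) (hne : l ≠ []) :
    cyc (magnus (runProd l) : Ser α) (l.map Prod.fst) ≠ 0 := by
  classical
  have hP : ((l.map Prod.snd).prod : ℤ) ≠ 0 := List.prod_ne_zero (by
    intro h0
    obtain ⟨y, hy, hy0⟩ := List.mem_map.mp h0
    exact hl.1.2 y hy hy0)
  have e : ∀ j ∈ range (l.map Prod.fst).length,
      (magnus (runProd l) : Ser α).co ((l.map Prod.fst).rotate j) =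
        if (l.map Prod.fst).rotate j = l.map Prod.fst then ((l.map Prod.snd).prod : ℚ) else 0 := by
    intro j _
    split_ifs with h
    · rw [h, (magnus_runs l hl.1).1]
    · exact magnus_runs_exact l hl.1 _ (isChain_rotate_fst hl j) (by simp) h
  rw [cyc, sum_congr rfl e, ← sum_filter, sum_const, nsmul_eq_mul]
  refine mul_ne_zero (Nat.cast_ne_zero.mpr (card_pos.mpr ⟨0, ?_⟩).ne') (Int.cast_ne_zero.mpr hP)
  simp [List.length_pos_iff.mpr hne, hne]

/-- Every element is conjugate to a power of a letter or to a cyclically reduced run word. -/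
lemma exists_cyclicRuns (g : FreeGroup α) : ∃ (u : FreeGroup α) (l : List (α × ℤ)),
    g = u * runProd l * u⁻¹ ∧ IsRuns l ∧ (l.length ≤ 1 ∨ IsCyclicRuns l) := by
  classical
  suffices h : ∀ (n : ℕ) (l : List (α × ℤ)), l.length = n → IsRuns l → ∃ (u : FreeGroup α) (l' : _),
      runProd l = u * runProd l' * u⁻¹ ∧ IsRuns l' ∧ (l'.length ≤ 1 ∨ IsCyclicRuns l') by
    obtain ⟨l, hl, hgl⟩ := exists_runs g [] ⟨by simp, by simp⟩
    rw [show runProd ([] : List (α × ℤ)) = 1 from rfl, mul_one] at hgl
    obtain ⟨u, l', h1, h2, h3⟩ := h _ l rfl hl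
    exact ⟨u, l', hgl ▸ h1, h2, h3⟩
  intro n
  induction n using Nat.strong_induction_on with
  | _ n ih =>
  intro l hn hl
  by_cases hcyc : l.length ≤ 1 ∨ IsCyclicRuns l
  · exact ⟨1, l, by simp, hl, hcyc⟩
  simp only [not_or, not_le] at hcyc
  obtain ⟨⟨a, m⟩, t, rfl⟩ : ∃ x t, l = x :: t := by
    cases l with
    | nil => simp at hcyc
    | cons x t => exact ⟨x, t, rfl⟩
  have htne : t ≠ [] := fun h => by simp [h] at hcyc
  obtain ⟨mid, ⟨b, k⟩, rfl⟩ : ∃ mid y, t = mid ++ [y] :=
    ⟨t.dropLast, t.getLast htne, (List.dropLast_append_getLast htne).symm⟩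
  have hab : b = a := by
    by_contra hab
    refine hcyc.2 ⟨hl, ?_⟩
    rw [← List.cons_append, List.getLast?_concat, List.cons_append, List.head?_cons]
    rintro _ ⟨⟩ _ ⟨⟩
    exact hab
  subst hab
  have hchain := hl.1
  rw [← List.cons_append] at hchain
  have hpre := hchain.left_of_append
  have hmid : IsRuns mid := ⟨hpre.tail, fun x hx => hl.2 x (by simp [hx])⟩
  have e : runProd ((b, m) :: (mid ++ [(b, k)])) =
      FreeGroup.of b ^ (-k) * (FreeGroup.of b ^ (k + m) * runProd mid) * (FreeGroup.of b ^ (-k))⁻¹ := by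
    simp [runProd, zpow_add]
    group
  by_cases hkm : k + m = 0
  · obtain ⟨u, l', h1, h2, h3⟩ := ih mid.length (by simp at hn; omega) mid rfl hmid
    refine ⟨FreeGroup.of b ^ (-k) * u, l', ?_, h2, h3⟩
    rw [e, hkm, zpow_zero, one_mul, h1]
    group
  · have hnew : IsRuns ((b, k + m) :: mid) := by
      refine ⟨?_, fun x hx => ?_⟩
      · cases mid with
        | nil => simp
        | cons y mid => exact List.isChain_cons_cons.mpr ⟨(List.isChain_cons_cons.mp hpre).1, hmid.1⟩
      · rcases List.mem_cons.mp hx with rfl | hx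
        · exact hkm
        · exact hmid.2 x hx
    obtain ⟨u, l', h1, h2, h3⟩ := ih (mid.length + 1) (by simp at hn; omega) _ (by simp) hnew
    refine ⟨FreeGroup.of b ^ (-k) * u, l', ?_, h2, h3⟩
    rw [e, show FreeGroup.of b ^ (k + m) * runProd mid = runProd ((b, k + m) :: mid) by simp [runProd],
      h1]
    group

/-- Two elements have the same cyclic coefficients. -/
def TraceEq (g h : FreeGroup α) : Prop :=
  ∀ v : List α, cyc (magnus g : Ser α) v = cyc (magnus h : Ser α) v

/-- A cyclic run word trace-equal to a word with few runs has few runs. -/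
lemma length_le_of_traceEq {l t : List (α × ℤ)} (hl : IsCyclicRuns l) (ht : IsRuns t)
    (h : TraceEq (runProd l) (runProd t)) : l.length ≤ t.length := by
  by_contra hlt
  have hne : l ≠ [] := fun e => by simp [e] at hlt
  apply cyc_runs_ne_zero hl hne
  rw [h]
  exact Finset.sum_eq_zero fun j _ =>
    (magnus_runs t ht).2 _ (isChain_rotate_fst hl j) (by simp; omega)

lemma TraceEq.conj_left {u g h : FreeGroup α} (hgh : TraceEq (u * g * u⁻¹) h) : TraceEq g h :=
  fun v => (cyc_conj u g v).symm.trans (hgh v)

end Vale.Agent.P201.Congr
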