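import Vale.Agent.P201.Congr.Binomial

/-!
# The binomial degree filtration on functions
-/

namespace Vale.Agent.P201.Congr

open Finset

variable {K : Type*} [Field K] {Ω ι : Type*}

/-- A product of binomial coefficients of coordinates. -/
def mon (X : ι → Ω → ℕ) (l : List (ι × ℕ)) : Ω → K :=
  fun ω => (l.map fun a => ((X a.1 ω).choose a.2 : K)).prod

/-- The total degree of such a product. -/
def deg (l : List (ι × ℕ)) : ℕ := (l.map Prod.snd).sum

variable (K) in
/-- The functions of binomial degree at most `n`. -/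
def Dsub (X : ι → Ω → ℕ) (n : ℕ) : Submodule K (Ω → K) :=
  Submodule.span K {f | ∃ l : List (ι × ℕ), deg l ≤ n ∧ f = mon X l}

variable {X : ι → Ω → ℕ}

lemma mon_append (l l' : List (ι × ℕ)) : (mon X (l ++ l') : Ω → K) = mon X l * mon X l' := by
  funext ω; simp [mon]

lemma deg_append (l l' : List (ι × ℕ)) : deg (l ++ l') = deg l + deg l' := by simp [deg]

lemma mon_mem {l : List (ι × ℕ)} {n : ℕ} (h : deg l ≤ n) : (mon X l : Ω → K) ∈ Dsub K X n :=
  Submodule.subset_span ⟨l, h, rfl⟩

lemma Dsub_mono {m n : ℕ} (h : m ≤ n) : Dsub K X m ≤ Dsub K X n :=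
  Submodule.span_mono fun _ ⟨l, hl, hf⟩ => ⟨l, hl.trans h, hf⟩

lemma one_mem_Dsub (n : ℕ) : (1 : Ω → K) ∈ Dsub K X n := by
  have : (1 : Ω → K) = mon X ([] : List (ι × ℕ)) := by funext ω; simp [mon]
  rw [this]; exact mon_mem (by simp [deg])

lemma choose_mem_Dsub (u : ι) {k n : ℕ} (h : k ≤ n) :
    (fun ω => ((X u ω).choose k : K)) ∈ Dsub K X n := by
  have : (fun ω => ((X u ω).choose k : K)) = mon X [(u, k)] := by funext ω; simp [mon]
  rw [this]; exact mon_mem (by simpa [deg] using h)

lemma mul_mem_Dsub {m n : ℕ} {f g : Ω → K} (hf : f ∈ Dsub K X m) (hg : g ∈ Dsub K X n) :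
    f * g ∈ Dsub K X (m + n) := by
  induction hf using Submodule.span_induction with
  | mem f hf =>
    obtain ⟨l, hl, rfl⟩ := hf
    induction hg using Submodule.span_induction with
    | mem g hg =>
      obtain ⟨l', hl', rfl⟩ := hg
      rw [← mon_append]
      exact mon_mem (by rw [deg_append]; omega)
    | zero => simp
    | add a b _ _ ha hb => rw [mul_add]; exact add_mem ha hb
    | smul c a _ ha => rw [mul_smul_comm]; exact Submodule.smul_mem _ c ha
  | zero => simp
  | add a b _ _ ha hb => rw [add_mul]; exact add_mem ha hb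
  | smul c a _ ha => rw [smul_mul_assoc]; exact Submodule.smul_mem _ c ha

/-- Pulling back along coordinates. -/
lemma comp_mem_Dsub {Ω' ι' : Type*} {X' : ι' → Ω' → ℕ} (φ : Ω → Ω') (ψ : ι' → ι)
    (h : ∀ u ω, X' u (φ ω) = X (ψ u) ω) {n : ℕ} {f : Ω' → K} (hf : f ∈ Dsub K X' n) :
    f ∘ φ ∈ Dsub K X n := by
  have hle : Dsub K X' n ≤ (Dsub K X n).comap (LinearMap.funLeft K K φ) := by
    refine Submodule.span_le.mpr ?_
    rintro _ ⟨l, hl, rfl⟩
    refine Submodule.subset_span ⟨l.map (Prod.map ψ id), ?_, ?_⟩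
    · simpa [deg, List.map_map, Function.comp_def] using hl
    · funext ω
      simp [mon, LinearMap.funLeft, h, List.map_map, Function.comp_def]
  exact hle hf

lemma sum_range_choose_col (n a : ℕ) : ∑ y ∈ range n, y.choose a = n.choose (a + 1) := by
  induction n with
  | zero => simp
  | succ n hn => rw [sum_range_succ, hn, Nat.choose_succ_succ', add_comm]

/-- The two coordinates of a pair of naturals. -/
def pairCoord : Bool → ℕ × ℕ → ℕ := fun b x => if b then x.1 else x.2

/-- The functions `C(y, a) * m(z)` with `a + deg m ≤ n`. -/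
def pairSub (K : Type*) [Field K] (n : ℕ) : Submodule K (ℕ × ℕ → K) :=
  Submodule.span K {f | ∃ (a : ℕ) (l : List (Unit × ℕ)), a + deg l ≤ n ∧
    f = fun x => (x.1.choose a : K) * mon (fun _ : Unit => fun z : ℕ => z) l x.2}

lemma pairSub_le (n : ℕ) : pairSub K n ≤ Dsub K pairCoord n := by
  refine Submodule.span_le.mpr ?_
  rintro _ ⟨a, l, hl, rfl⟩
  have : (fun x : ℕ × ℕ => (x.1.choose a : K) * mon (fun _ : Unit => fun z : ℕ => z) l x.2) =
      mon pairCoord ((true, a) :: l.map (Prod.map (fun _ => false) id)) := by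
    funext x; simp [mon, pairCoord, List.map_map, Function.comp_def]
  rw [this]
  refine Submodule.subset_span ⟨_, ?_, rfl⟩
  simpa [deg, List.map_map, Function.comp_def] using hl

/-- `C(y z, l)` has degree at most `2 l`. -/
lemma choose_mul_mem_pairSub : ∀ l : ℕ,
    (fun x : ℕ × ℕ => ((x.1 * x.2).choose l : K)) ∈ pairSub K (2 * l) := by
  intro l
  induction l using Nat.strong_induction_on with
  | _ l ih =>
  rcases Nat.eq_zero_or_pos l with rfl | hl
  · exact Submodule.subset_span ⟨0, [], by simp [deg], by funext x; simp [mon]⟩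
  -- summation in the first variable
  let S : (ℕ × ℕ → K) →ₗ[K] (ℕ × ℕ → K) :=
    { toFun := fun f x => ∑ y ∈ range x.1, f (y, x.2)
      map_add' := fun f g => by funext x; simp [sum_add_distrib]
      map_smul' := fun c f => by funext x; simp [mul_sum] }
  have hS : ∀ n, pairSub K n ≤ (pairSub K (n + 1)).comap S := by
    intro n
    refine Submodule.span_le.mpr ?_
    rintro _ ⟨a, m, hm, rfl⟩
    refine Submodule.subset_span ⟨a + 1, m, by omega, ?_⟩
    funext x
    show ∑ y ∈ range x.1, (y.choose a : K) * mon _ m x.2 = _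
    rw [← sum_mul, ← Nat.cast_sum, sum_range_choose_col]
  have key : (fun x : ℕ × ℕ => ((x.1 * x.2).choose l : K)) =
      S (∑ i ∈ range l, (fun x : ℕ × ℕ => ((x.1 * x.2).choose i : K)) *
        fun x : ℕ × ℕ => (x.2.choose (l - i) : K)) := by
    funext x
    obtain ⟨y, z⟩ := x
    show ((y * z).choose l : K) = ∑ y' ∈ range y, _
    induction y with
    | zero => simp [Nat.choose_eq_zero_of_lt hl]
    | succ y hy =>
      rw [sum_range_succ, ← hy, add_mul, one_mul, Nat.add_choose_eq,
        Finset.Nat.sum_antidiagonal_eq_sum_range_succ (fun i j => (y * z).choose i * z.choose j),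
        sum_range_succ, Nat.sub_self, Nat.choose_zero_right, mul_one, Nat.cast_add, Nat.cast_sum]
      simp [Finset.sum_apply, Pi.mul_apply, add_comm]
  rw [key]
  have hmem : ∀ i ∈ range l, ((fun x : ℕ × ℕ => ((x.1 * x.2).choose i : K)) *
      fun x : ℕ × ℕ => (x.2.choose (l - i) : K)) ∈ pairSub K (2 * l - 1) := by
    intro i hi
    have hil := mem_range.mp hi
    have hle : pairSub K (2 * i) ≤ (pairSub K (2 * l - 1)).comap
        (LinearMap.mulRight K (fun x : ℕ × ℕ => (x.2.choose (l - i) : K))) := by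
      refine Submodule.span_le.mpr ?_
      rintro _ ⟨a, m, hm, rfl⟩
      refine Submodule.subset_span ⟨a, m ++ [((), l - i)], ?_, ?_⟩
      · simp [deg] at hm ⊢; omega
      · funext x; simp [mon, mul_assoc]
    exact hle (ih i hil)
  have := hS _ (Submodule.sum_mem _ hmem)
  rwa [Nat.sub_add_cancel (by omega)] at this

variable {p : ℕ} [Fact p.Prime] [CharP K p]

/-- For `2 < p ^ e`, a multiple by `p ^ e` of a quadratic function only lowers degrees. -/
lemma choose_pow_mul_quadratic_mem (e : ℕ) (he : 2 < p ^ e) : ∀ (W : List (ι × ι)) (j : ℕ),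
    (fun ω => ((p ^ e * (W.map fun t => X t.1 ω * X t.2 ω).sum).choose j : K)) ∈
      Dsub K X (j - 1) := by
  intro W
  induction W with
  | nil =>
    intro j
    rcases Nat.eq_zero_or_pos j with rfl | hj
    · simp only [List.map_nil, List.sum_nil, Nat.choose_zero_right, Nat.cast_one]
      exact one_mem_Dsub _
    · simp only [List.map_nil, List.sum_nil, mul_zero, Nat.choose_eq_zero_of_lt hj, Nat.cast_zero]
      exact Submodule.zero_mem _
  | cons t W ih =>
    intro j
    have hhead : ∀ i, (fun ω => ((p ^ e * (X t.1 ω * X t.2 ω)).choose i : K)) ∈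
        Dsub K X (i - 1) := by
      intro i
      simp only [cast_choose_pow_mul (p := p) e]
      by_cases hi : p ^ e ∣ i
      swap
      · simp only [if_neg hi]; exact Submodule.zero_mem _
      simp only [if_pos hi]
      obtain ⟨l, rfl⟩ := hi
      rw [Nat.mul_div_cancel_left _ (by omega)]
      have h1 := comp_mem_Dsub (X := X) (fun ω => (X t.1 ω, X t.2 ω))
        (fun b => if b then t.1 else t.2) (fun b ω => by cases b <;> simp [pairCoord])
        (pairSub_le _ (choose_mul_mem_pairSub (K := K) l))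
      refine Dsub_mono ?_ h1
      rcases Nat.eq_zero_or_pos l with rfl | hl
      · simp
      · have : 3 * l ≤ p ^ e * l := Nat.mul_le_mul_right l he
        omega
    have e0 : (fun ω => ((p ^ e * ((t :: W).map fun t => X t.1 ω * X t.2 ω).sum).choose j : K)) =
        ∑ ij ∈ antidiagonal j, (fun ω => ((p ^ e * (X t.1 ω * X t.2 ω)).choose ij.1 : K)) *
          fun ω => ((p ^ e * (W.map fun t => X t.1 ω * X t.2 ω).sum).choose ij.2 : K) := by
      funext ω
      simp only [List.map_cons, List.sum_cons, mul_add, Nat.add_choose_eq, Nat.cast_sum,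
        Nat.cast_mul, Finset.sum_apply, Pi.mul_apply]
    rw [e0]
    refine Submodule.sum_mem _ fun ij hij => Dsub_mono ?_ (mul_mem_Dsub (hhead _) (ih _))
    have := mem_antidiagonal.mp hij
    omega

end Vale.Agent.P201.Congr
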