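import Vale.Agent.P201.Congr.Lattice
import Vale.Agent.P201.Congr.CharZero

/-!
# Congruence groups of lattices: no zero divisors in characteristic `p` and `0`
-/

namespace Vale.Agent.P201.Congr

/-- Congruence groups of lattices have no zero divisors over fields of characteristic `p` or
`0`. -/
theorem noZeroDivisors_of_congruence.{u, v, w} {p e : ℕ} [Fact p.Prime] {G : Type v} {M : Type w}
    [Group G] [AddCommGroup M] [DistribMulAction G M] (he : 2 < p ^ e)
    (htf : ∀ m : M, p • m = 0 → m = 0)
    (hsep : ∀ m : M, (∀ s : ℕ, ∃ y : M, m = p ^ s • y) → m = 0)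
    (hcong : ∀ (g : G) (m : M), ∃ y : M, g • m - m = p ^ e • y)
    (hfaith : ∀ g : G, (∀ m : M, g • m = m) → g = 1)
    (K : Type u) [Field K] (hK : CharP K p ∨ CharZero K) :
    NoZeroDivisors (MonoidAlgebra K G) := by
  rcases hK with hK | hK
  · exact noZeroDivisors_of_congruence_charP he htf hsep hcong hfaith
  · exact noZeroDivisors_charZero p
      (fun k _ _ => noZeroDivisors_of_congruence_charP he htf hsep hcong hfaith) K

end Vale.Agent.P201.Congr
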