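import Vale.Agent.P201.Congr.Augmentation
import Vale.Agent.P201.Congr.Main

/-!
# Congruence subgroups of automorphism groups of free groups

The rescaled Magnus coefficients give a lattice on which such a group acts faithfully and
trivially modulo `p ^ e`.
-/

namespace Vale.Agent.P201.Congr

open MonoidAlgebra

variable {α : Type*}

/-- The automorphism `φ` induces the identity on the abelianisation modulo `q`. -/
def ActsTriviallyMod (q : ℕ) (φ : MulAut (FreeGroup α)) : Prop :=
  ∀ x : FreeGroup α, ∃ y : Abelianization (FreeGroup α),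
    Abelianization.of (φ x) = Abelianization.of x * y ^ q

/-- The automorphism of the group algebra induced by an automorphism of the free group. -/
noncomputable def autAlg (φ : MulAut (FreeGroup α)) : QF α →ₐ[ℚ] QF α :=
  MonoidAlgebra.mapDomainAlgHom ℚ ℚ φ.toMonoidHom

lemma autAlg_single (φ : MulAut (FreeGroup α)) (g : FreeGroup α) (r : ℚ) :
    autAlg φ (single g r) = single (φ g) r := by
  simp [autAlg]

lemma autAlg_dif (φ : MulAut (FreeGroup α)) (g : FreeGroup α) :
    autAlg φ (dif g) = dif (φ g) := by
  rw [dif, map_sub, map_one, autAlg_single]; rfl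

lemma autAlg_mul (φ ψ : MulAut (FreeGroup α)) (z : QF α) :
    autAlg (φ * ψ) z = autAlg φ (autAlg ψ z) := by
  induction z using MonoidAlgebra.induction_linear with
  | zero => simp
  | add a b ha hb => simp [map_add, ha, hb]
  | single g r => simp [autAlg_single]

lemma autAlg_one (z : QF α) : autAlg (1 : MulAut (FreeGroup α)) z = z := by
  induction z using MonoidAlgebra.induction_linear with
  | zero => simp
  | add a b ha hb => simp [map_add, ha, hb]
  | single g r => simp [autAlg_single]

lemma autAlg_mem_aug (φ : MulAut (FreeGroup α)) : ∀ (d : ℕ) (z : QF α), z ∈ aug d →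
    autAlg φ z ∈ aug d := by
  intro d
  induction d with
  | zero => intros; trivial
  | succ d ih =>
    intro z hz
    induction hz using Submodule.span_induction with
    | mem x hx =>
      obtain ⟨g, y, hy, rfl⟩ := hx
      rw [map_mul, autAlg_dif]
      exact dif_mul_mem _ (ih y hy)
    | zero => rw [map_zero]; exact Submodule.zero_mem _
    | add a b _ _ ha hb => rw [map_add]; exact Submodule.add_mem _ ha hb
    | smul c a _ ha => rw [map_smul]; exact Submodule.smul_mem _ c ha

open Classical in
/-- The image of a monomial under a congruence automorphism. -/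
lemma expand_autAlg_mono {q : ℕ} (φ : MulAut (FreeGroup α)) (hφ : ActsTriviallyMod q φ) :
    ∀ w : List α, Ser.Integral (expand (autAlg φ (mono w))) ∧
      (∀ v : List α, v.length < w.length → (expand (autAlg φ (mono w))).co v = 0) ∧
      ∀ v : List α, v.length = w.length → ∃ n : ℤ,
        (expand (autAlg φ (mono w))).co v = (if v = w then 1 else 0) + q * n := by
  intro w
  induction w with
  | nil =>
    rw [show mono ([] : List α) = 1 from rfl, map_one, expand_one]
    refine ⟨Ser.Integral.one, fun v hv => by simp at hv, fun v hv => ⟨0, ?_⟩⟩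
    rw [List.length_nil, List.length_eq_zero_iff] at hv
    subst hv
    simp
  | cons a w ih =>
    obtain ⟨hint, hlow, htop⟩ := ih
    rw [mono_cons, map_mul, autAlg_dif, expand_mul]
    set f := expand (dif (φ (FreeGroup.of a))) with hf
    set P := expand (autAlg φ (mono w))
    have hfint : Ser.Integral f := by
      rw [hf, expand_dif]
      exact (magnus_props _).2.sub Ser.Integral.one
    have hfnil : f.co [] = 0 := by
      rw [hf, expand_dif, Ser.co_sub, (magnus_props _).1, Ser.co_one_nil, sub_self]
    refine ⟨hfint.mul hint, fun v hv => ?_, fun v hv => ?_⟩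
    · cases v with
      | nil => rw [Ser.co_mul_nil, hfnil, zero_mul]
      | cons b v =>
        rw [Ser.co_mul_cons, hfnil, zero_mul, zero_add]
        exact Ser.mul_eq_zero_of_length _ _ _ hlow v (by simpa using hv)
    · cases v with
      | nil => simp at hv
      | cons b v =>
        simp only [List.length_cons, Nat.succ.injEq] at hv
        rw [Ser.co_mul_cons, hfnil, zero_mul, zero_add, Ser.mul_apply_of_length _ _ _ hlow v hv]
        show ∃ n : ℤ, f.co [b] * P.co v = _
        obtain ⟨y, hy⟩ := hφ (FreeGroup.of a)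
        obtain ⟨h, rfl⟩ : ∃ h, Abelianization.of h = y := QuotientGroup.mk_surjective y
        have h1 := congrArg (fun u => (degHom b u).toAdd) hy
        simp only [map_mul, map_pow, toAdd_mul, toAdd_pow, degHom_of] at h1
        obtain ⟨m, hm⟩ := (magnus_props h).2 [b]
        obtain ⟨n, hn⟩ := htop v hv
        have hfb : f.co [b] = (if b = a then 1 else 0) + q * m := by
          rw [hf, expand_dif, Ser.co_sub, h1, hm, magnus_of]
          by_cases hb : b = a <;> simp [letter, hb]
        refine ⟨(if b = a then 1 else 0) * n + (if v = w then 1 else 0) * m + q * m * n, ?_⟩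
        rw [hfb, hn]
        by_cases hb : b = a <;> by_cases hvw : v = w <;> simp [hb, hvw] <;> ring

/-- Elements whose `q`-rescaled Magnus coefficients are integers. -/
def integralPart (α : Type*) (q : ℕ) : AddSubgroup (QF α) where
  carrier := {z | ∀ v : List α, ∃ n : ℤ, (q : ℚ) ^ v.length * (expand z).co v = n}
  zero_mem' v := ⟨0, by simp [expand_zero]⟩
  add_mem' {a b} ha hb v := by
    obtain ⟨m, hm⟩ := ha v
    obtain ⟨n, hn⟩ := hb v
    exact ⟨m + n, by rw [expand_add, Ser.co_add, mul_add, hm, hn]; push_cast; ring⟩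
  neg_mem' {a} ha v := by
    obtain ⟨m, hm⟩ := ha v
    refine ⟨-m, ?_⟩
    rw [show expand (-a) = -expand a from Ser.ext (map_neg coe' a), Ser.co_neg, mul_neg, hm]
    push_cast; ring

/-- The rescaled coefficients. -/
noncomputable def rescale (q : ℕ) : QF α →+ (List α → ℚ) where
  toFun z v := (q : ℚ) ^ v.length * (expand z).co v
  map_zero' := by funext v; simp [expand_zero]
  map_add' a b := by funext v; simp [expand_add, mul_add]

/-- The lattice. -/
noncomputable def lattice (α : Type*) (q : ℕ) : AddSubgroup (List α → ℚ) :=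
  (integralPart α q).map (rescale q)

/-- The change of the coefficients under a congruence automorphism. -/
lemma rescale_autAlg {q : ℕ} (φ : MulAut (FreeGroup α)) (hφ : ActsTriviallyMod q φ)
    (z : QF α) (hz : z ∈ integralPart α q) (v : List α) :
    ∃ n : ℤ, rescale q (autAlg φ z) v - rescale q z v = q * n := by
  classical
  obtain ⟨r, hsupp, hmem, hr⟩ := exists_mono_approx z (v.length + 1)
  have h0 := expand_eq_zero_of_mem _ _ (autAlg_mem_aug φ _ _ hmem) v (Nat.lt_succ_self _)
  rw [map_sub, expand_sub, Ser.co_sub, sub_eq_zero] at h0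
  have hsum : (expand (autAlg φ (Finsupp.linearCombination ℚ mono r))).co v =
      ∑ w ∈ r.support, r w * (expand (autAlg φ (mono w))).co v := by
    show coe' ((autAlg φ).toLinearMap (Finsupp.linearCombination ℚ mono r)) v = _
    rw [Finsupp.linearCombination_apply, Finsupp.sum, map_sum, map_sum, Finset.sum_apply]
    refine Finset.sum_congr rfl fun w _ => ?_
    rw [map_smul, map_smul, Pi.smul_apply, smul_eq_mul]
    rfl
  have hterm : ∀ w ∈ r.support, ∃ n : ℤ, (q : ℚ) ^ v.length *
      (r w * (expand (autAlg φ (mono w))).co v) =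
        (if w = v then (q : ℚ) ^ v.length * r w else 0) + q * n := by
    intro w hw
    have hwl := hsupp w hw
    obtain ⟨hint, hlow, htop⟩ := expand_autAlg_mono φ hφ w
    obtain ⟨m, hm⟩ := hz w
    have hrw : (q : ℚ) ^ w.length * r w = m := by rw [hr w hwl]; exact hm
    rcases Nat.lt_or_ge v.length w.length with h | h
    · refine ⟨0, ?_⟩
      rw [hlow v h, if_neg fun e => by subst e; omega]
      simp
    rcases Nat.eq_or_lt_of_le h with h' | h'
    · obtain ⟨n, hn⟩ := htop v h'.symm
      refine ⟨m * n, ?_⟩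
      rw [hn, mul_add, mul_add, ← mul_assoc, ← h', show ((q : ℚ) * ((m * n : ℤ) : ℚ)) =
        (m : ℚ) * (q * n) by push_cast; ring, ← hrw]
      by_cases hvw : v = w
      · subst hvw; simp; ring
      · rw [if_neg hvw, if_neg (Ne.symm hvw)]; ring
    · obtain ⟨k, hk⟩ := hint v
      obtain ⟨j, hj⟩ : ∃ j, v.length = w.length + (j + 1) := ⟨v.length - w.length - 1, by omega⟩
      refine ⟨m * q ^ j * k, ?_⟩
      rw [hk, if_neg fun e => by subst e; omega, hj, pow_add, pow_succ]
      push_cast
      rw [← hrw]
      ring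
  choose n hn using hterm
  refine ⟨∑ w ∈ r.support.attach, n w.1 w.2, ?_⟩
  have hdiag : ∑ w ∈ r.support, (if w = v then (q : ℚ) ^ v.length * r w else 0) =
      (q : ℚ) ^ v.length * (expand z).co v := by
    rw [Finset.sum_ite_eq', ← hr v (Nat.lt_succ_self _)]
    split_ifs with h
    · rfl
    · rw [Finsupp.notMem_support_iff.mp h, mul_zero]
  show (q : ℚ) ^ v.length * (expand (autAlg φ z)).co v - (q : ℚ) ^ v.length * (expand z).co v = _
  rw [h0, hsum, Finset.mul_sum, ← Finset.sum_attach r.support]
  rw [Finset.sum_congr rfl (fun w _ => hn w.1 w.2), Finset.sum_add_distrib,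
    Finset.sum_attach r.support (fun w => if w = v then (q : ℚ) ^ v.length * r w else 0), hdiag,
    Int.cast_sum, Finset.mul_sum]
  ring

lemma autAlg_mem_integralPart {q : ℕ} (φ : MulAut (FreeGroup α)) (hφ : ActsTriviallyMod q φ)
    {z : QF α} (hz : z ∈ integralPart α q) : autAlg φ z ∈ integralPart α q := by
  intro v
  obtain ⟨n, hn⟩ := rescale_autAlg φ hφ z hz v
  obtain ⟨m, hm⟩ := hz v
  refine ⟨m + q * n, ?_⟩
  simp only [rescale, AddMonoidHom.coe_mk, ZeroHom.coe_mk, sub_eq_iff_eq_add] at hn
  rw [hn, hm]
  push_cast; ring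

/-- The kernel of the rescaling is invariant. -/
lemma rescale_autAlg_eq_zero {q : ℕ} (hq : q ≠ 0) (φ : MulAut (FreeGroup α)) {z : QF α}
    (hz : rescale q z = 0) : rescale q (autAlg φ z) = 0 := by
  have hco : ∀ w, (expand z).co w = 0 := fun w => by
    have := congrFun hz w
    simp only [rescale, AddMonoidHom.coe_mk, ZeroHom.coe_mk, Pi.zero_apply] at this
    exact (mul_eq_zero.mp this).resolve_left (pow_ne_zero _ (Nat.cast_ne_zero.mpr hq))
  funext v
  obtain ⟨r, hsupp, hmem, hr⟩ := exists_mono_approx z (v.length + 1)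
  have hr0 : r = 0 := Finsupp.ext fun w => by
    by_contra h
    exact h ((hr w (hsupp w (Finsupp.mem_support_iff.mpr h))).trans (hco w))
  rw [hr0, map_zero, sub_zero] at hmem
  have h0 := expand_eq_zero_of_mem _ _ (autAlg_mem_aug φ _ _ hmem) v (Nat.lt_succ_self _)
  simp [rescale, h0]

/-- **Congruence subgroups of the automorphism group of a free group.** Their group algebras have
no zero divisors in characteristic `p` and `0`. -/
theorem noZeroDivisors_freeGroup_aut.{u} {p e : ℕ} [Fact p.Prime] (he : 2 < p ^ e)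
    (H : Subgroup (MulAut (FreeGroup α))) (hH : ∀ φ ∈ H, ActsTriviallyMod (p ^ e) φ)
    (K : Type u) [Field K] (hK : CharP K p ∨ CharZero K) :
    NoZeroDivisors (MonoidAlgebra K H) := by
  classical
  have hq : p ^ e ≠ 0 := by omega
  have hp : (p : ℚ) ≠ 0 := Nat.cast_ne_zero.mpr (Fact.out : p.Prime).ne_zero
  let L := lattice α (p ^ e)
  have hint : ∀ m ∈ L, ∀ v, ∃ n : ℤ, m v = n := by
    rintro _ ⟨z, hz, rfl⟩ v
    exact hz v
  have hwd : ∀ (φ : MulAut (FreeGroup α)) (z z' : QF α),
      rescale (p ^ e) z = rescale (p ^ e) z' →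
      rescale (p ^ e) (autAlg φ z) = rescale (p ^ e) (autAlg φ z') := by
    intro φ z z' h
    have h1 := rescale_autAlg_eq_zero hq φ (z := z - z') (by rw [map_sub, h, sub_self])
    rwa [map_sub, map_sub, sub_eq_zero] at h1
  choose pre hpre hpre' using fun m : L => AddSubgroup.mem_map.mp m.2
  let act : H → L → L := fun φ m => ⟨rescale (p ^ e) (autAlg (φ : MulAut (FreeGroup α)) (pre m)),
    _, autAlg_mem_integralPart _ (hH _ φ.2) (hpre m), rfl⟩
  have hact : ∀ (φ : H) (m : L) (z : QF α), rescale (p ^ e) z = (m : List α → ℚ) →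
      ((act φ m : L) : List α → ℚ) = rescale (p ^ e) (autAlg (φ : MulAut (FreeGroup α)) z) :=
    fun φ m z hz => hwd _ _ _ ((hpre' m).trans hz.symm)
  letI : DistribMulAction H L :=
    { smul := act
      one_smul := fun m => Subtype.ext (by
        show ((act 1 m : L) : List α → ℚ) = m
        rw [hact 1 m _ (hpre' m), Subgroup.coe_one, autAlg_one, hpre'])
      mul_smul := fun φ ψ m => Subtype.ext (by
        show ((act (φ * ψ) m : L) : List α → ℚ) = (act φ (act ψ m) : L)
        rw [hact _ m _ (hpre' m), Subgroup.coe_mul, autAlg_mul,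
          hact φ (act ψ m) _ (hact ψ m _ (hpre' m)).symm])
      smul_zero := fun φ => Subtype.ext (by
        show ((act φ 0 : L) : List α → ℚ) = ((0 : L) : List α → ℚ)
        rw [hact φ 0 0 (by simp)]
        simp)
      smul_add := fun φ m m' => Subtype.ext (by
        show ((act φ (m + m') : L) : List α → ℚ) =
          (act φ m : L) + ((act φ m' : L) : List α → ℚ)
        rw [hact φ (m + m') (pre m + pre m') (by simp [hpre']), hact φ m _ (hpre' m),
          hact φ m' _ (hpre' m'), map_add, map_add]) }
  have hsmul : ∀ (φ : H) (m : L), ((φ • m : L) : List α → ℚ) =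
      rescale (p ^ e) (autAlg (φ : MulAut (FreeGroup α)) (pre m)) := fun φ m => rfl
  refine noZeroDivisors_of_congruence (p := p) (e := e) (G := H) (M := L) he (fun m hm => ?_)
    (fun m hm => ?_) (fun φ m => ?_) (fun φ hφ => ?_) K hK
  · refine Subtype.ext (funext fun v => ?_)
    have := congrFun (congrArg Subtype.val hm) v
    simp only [AddSubgroup.coe_nsmul, nsmul_eq_mul, Pi.mul_apply, Pi.natCast_apply,
      AddSubgroup.coe_zero, Pi.zero_apply] at this
    exact (mul_eq_zero.mp this).resolve_left hp
  · refine Subtype.ext (funext fun v => ?_)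
    obtain ⟨n, hn⟩ := hint _ m.2 v
    obtain ⟨y, hy⟩ := hm n.natAbs
    obtain ⟨k, hk⟩ := hint _ y.2 v
    have h1 := congrFun (congrArg Subtype.val hy) v
    simp only [AddSubgroup.coe_nsmul, nsmul_eq_mul, Pi.mul_apply, Pi.natCast_apply,
      AddSubgroup.coe_zero, Pi.zero_apply] at h1 ⊢
    rw [hn, hk] at h1
    have h2 : n = ((p ^ n.natAbs : ℕ) : ℤ) * k := by exact_mod_cast h1
    have hdvd : p ^ n.natAbs ∣ n.natAbs :=
      Int.natCast_dvd.mp (Dvd.intro k h2.symm)
    have hn0 : n.natAbs = 0 := by
      by_contra h0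
      have h4 := Nat.le_of_dvd (Nat.pos_of_ne_zero h0) hdvd
      have h5 := Nat.lt_pow_self (n := n.natAbs) (Fact.out : p.Prime).one_lt
      omega
    rw [hn, Int.natAbs_eq_zero.mp hn0, Int.cast_zero]
  · -- congruence
    let y : QF α := (((p ^ e : ℕ) : ℚ))⁻¹ • (autAlg (φ : MulAut (FreeGroup α)) (pre m) - pre m)
    have hy : ∀ v, rescale (p ^ e) y v = (((p ^ e : ℕ) : ℚ))⁻¹ *
        (rescale (p ^ e) (autAlg (φ : MulAut (FreeGroup α)) (pre m)) v -
          rescale (p ^ e) (pre m) v) := fun v => by
      simp [rescale, y, expand_smul, expand_sub, Ser.sc]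
      ring
    refine ⟨⟨rescale (p ^ e) y, y, fun v => ?_, rfl⟩, ?_⟩
    · obtain ⟨n, hn⟩ := rescale_autAlg _ (hH _ φ.2) _ (hpre m) v
      refine ⟨n, ?_⟩
      show rescale (p ^ e) y v = n
      rw [hy, hn, inv_mul_cancel_left₀ (Nat.cast_ne_zero.mpr hq)]
    · refine Subtype.ext (funext fun v => ?_)
      simp only [AddSubgroup.coe_sub, AddSubgroup.coe_nsmul, nsmul_eq_mul, Pi.sub_apply,
        Pi.mul_apply, Pi.natCast_apply]
      rw [hsmul, hy, mul_inv_cancel_left₀ (Nat.cast_ne_zero.mpr hq), hpre']
  · -- faithfulness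
    refine Subtype.ext (MulEquiv.toMonoidHom_injective (FreeGroup.ext_hom _ _ fun a => ?_))
    have hz : dif (FreeGroup.of a) ∈ integralPart α (p ^ e) := fun v => by
      obtain ⟨n, hn⟩ := (magnus_props (FreeGroup.of a)).2.sub Ser.Integral.one v
      exact ⟨((p ^ e) ^ v.length : ℕ) * n, by rw [expand_dif, hn]; push_cast; ring⟩
    let m : L := ⟨_, _, hz, rfl⟩
    have h1 := congrArg Subtype.val (hφ m)
    rw [show ((φ • m : L) : List α → ℚ) = _ from hact φ m _ rfl, autAlg_dif] at h1
    apply magnus_injective
    apply Units.ext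
    ext v
    have h2 := congrFun h1 v
    simp only [m, rescale, AddMonoidHom.coe_mk, ZeroHom.coe_mk, expand_dif, Ser.co_sub] at h2
    exact sub_left_injective (mul_left_cancel₀ (pow_ne_zero _ (Nat.cast_ne_zero.mpr hq)) h2)

end Vale.Agent.P201.Congr
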