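import Vale.Agent.P201.Congr.Main

/-!
# Congruence subgroups of holomorphs of groups with enough integral unitriangular representations

If a group `H` of automorphisms of `N` is trivial on the abelianisation modulo `q`, then `N ⋊ H`
acts trivially modulo `q` on the lattice of integer functions on `N` which are divisible by `q ^ k`
on the `k`-th power of the augmentation ideal. It acts faithfully as soon as the unitriangular
integral representations separate the points of `N`.
-/

namespace Vale.Agent.P201.Congr.Holo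

open MonoidAlgebra

variable {N : Type*} [Group N]

/-- The integral group algebra. -/
abbrev ZN (N : Type*) := MonoidAlgebra ℤ N

/-- `g - 1`. -/
noncomputable def df (g : N) : ZN N := single g 1 - 1

/-- The powers of the augmentation ideal. -/
noncomputable def ag : ℕ → Submodule ℤ (ZN N)
  | 0 => ⊤
  | d + 1 => Submodule.span ℤ {x | ∃ g, ∃ y ∈ ag d, x = df g * y}

lemma df_mul_mem {d : ℕ} (g : N) {y : ZN N} (hy : y ∈ ag d) : df g * y ∈ ag (d + 1) :=
  Submodule.subset_span ⟨g, y, hy, rfl⟩

lemma df_mem (g : N) : df g ∈ ag 1 := by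
  simpa using df_mul_mem g (y := (1 : ZN N)) (show (1 : ZN N) ∈ ag 0 from trivial)

lemma df_mul (a b : N) : df (a * b) = df a + df b + df a * df b := by
  simp [df, mul_sub, sub_mul, single_mul_single, MonoidAlgebra.one_def]
  abel

lemma mul_mem_ag_right : ∀ (d : ℕ) (z y : ZN N), z ∈ ag d → z * y ∈ ag d := by
  intro d
  induction d with
  | zero => intros; trivial
  | succ d ih =>
    intro z y hz
    induction hz using Submodule.span_induction with
    | mem x hx =>
      obtain ⟨g, z', hz', rfl⟩ := hx
      rw [mul_assoc]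
      exact df_mul_mem g (ih _ _ hz')
    | zero => rw [zero_mul]; exact Submodule.zero_mem _
    | add a b _ _ ha hb => rw [add_mul]; exact Submodule.add_mem _ ha hb
    | smul c a _ ha => rw [smul_mul_assoc]; exact Submodule.smul_mem _ c ha

lemma mul_mem_ag_left : ∀ (d : ℕ) (z y : ZN N), y ∈ ag d → z * y ∈ ag d := by
  intro d
  induction d with
  | zero => intros; trivial
  | succ d ih =>
    intro z y hy
    induction hy using Submodule.span_induction with
    | mem x hx =>
      obtain ⟨h, y', hy', rfl⟩ := hx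
      induction z using MonoidAlgebra.induction_linear with
      | zero => rw [zero_mul]; exact Submodule.zero_mem _
      | add a b ha hb => rw [add_mul]; exact Submodule.add_mem _ ha hb
      | single g r =>
        have : single g r * (df h * y') = df (g * h * g⁻¹) * (single g r * y') := by
          rw [← mul_assoc, ← mul_assoc]
          congr 1
          simp [df, mul_sub, sub_mul, single_mul_single, MonoidAlgebra.one_def]
        rw [this]
        exact df_mul_mem _ (ih _ _ hy')
    | zero => rw [mul_zero]; exact Submodule.zero_mem _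
    | add a b _ _ ha hb => rw [mul_add]; exact Submodule.add_mem _ ha hb
    | smul c a _ ha => rw [mul_smul_comm]; exact Submodule.smul_mem _ c ha

lemma mul_mem_ag : ∀ (i j : ℕ) (z y : ZN N), z ∈ ag i → y ∈ ag j → z * y ∈ ag (i + j) := by
  intro i
  induction i with
  | zero => intro j z y _ hy; rw [zero_add]; exact mul_mem_ag_left j z y hy
  | succ i ih =>
    intro j z y hz hy
    induction hz using Submodule.span_induction with
    | mem x hx =>
      obtain ⟨g, z', hz', rfl⟩ := hx
      rw [mul_assoc, Nat.succ_add]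
      exact df_mul_mem g (ih j z' y hz' hy)
    | zero => rw [zero_mul]; exact Submodule.zero_mem _
    | add a b _ _ ha hb => rw [add_mul]; exact Submodule.add_mem _ ha hb
    | smul c a _ ha => rw [smul_mul_assoc]; exact Submodule.smul_mem _ c ha

/-- `q · Δ ^ k + Δ ^ (k + 1)`. -/
noncomputable def sub' (q k : ℕ) : Submodule ℤ (ZN N) :=
  (ag k).map ((q : ℤ) • (LinearMap.id : ZN N →ₗ[ℤ] ZN N)) ⊔ ag (k + 1)

lemma mem_sub' {q k : ℕ} {z : ZN N} :
    z ∈ sub' q k ↔ ∃ a ∈ ag k, ∃ b ∈ ag (k + 1), z = (q : ℤ) • a + b := by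
  simp only [sub', Submodule.mem_sup, Submodule.mem_map]
  constructor
  · rintro ⟨_, ⟨a, ha, rfl⟩, b, hb, rfl⟩
    exact ⟨a, ha, b, hb, by simp⟩
  · rintro ⟨a, ha, b, hb, rfl⟩
    exact ⟨(q : ℤ) • a, ⟨a, ha, by simp⟩, b, hb, rfl⟩

lemma df_mul_sub' {q k : ℕ} (g : N) {z : ZN N} (hz : z ∈ sub' q k) :
    df g * z ∈ sub' q (k + 1) := by
  obtain ⟨a, ha, b, hb, rfl⟩ := mem_sub'.mp hz
  exact mem_sub'.mpr ⟨_, df_mul_mem g ha, _, df_mul_mem g hb, by rw [mul_add, mul_smul_comm]⟩

/-- The automorphism of the group algebra. -/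
noncomputable def aut (φ : MulAut N) : ZN N →ₐ[ℤ] ZN N :=
  MonoidAlgebra.mapDomainAlgHom ℤ ℤ φ.toMonoidHom

lemma aut_single (φ : MulAut N) (g : N) (r : ℤ) : aut φ (single g r) = single (φ g) r := by
  simp [aut]

lemma aut_df (φ : MulAut N) (g : N) : aut φ (df g) = df (φ g) := by
  rw [df, map_sub, map_one, aut_single]; rfl

lemma aut_mem (φ : MulAut N) : ∀ (d : ℕ) (z : ZN N), z ∈ ag d → aut φ z ∈ ag d := by
  intro d
  induction d with
  | zero => intros; trivial
  | succ d ih =>
    intro z hz
    induction hz using Submodule.span_induction with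
    | mem x hx =>
      obtain ⟨g, y, hy, rfl⟩ := hx
      rw [map_mul, aut_df]
      exact df_mul_mem _ (ih y hy)
    | zero => rw [map_zero]; exact Submodule.zero_mem _
    | add a b _ _ ha hb => rw [map_add]; exact Submodule.add_mem _ ha hb
    | smul c a _ ha => rw [map_smul]; exact Submodule.smul_mem _ c ha

/-- `φ` is trivial on the abelianisation modulo `q`. -/
def Triv (q : ℕ) (φ : MulAut N) : Prop :=
  ∀ x : N, ∃ y : Abelianization N, Abelianization.of (φ x) = Abelianization.of x * y ^ q

/-- Integral unitriangular representations separate the points of `N` from `1`. -/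
def UTSep (N : Type*) [Group N] : Prop :=
  ∀ g : N, g ≠ 1 → ∃ (n : ℕ) (ρ : N →* Matrix (Fin n) (Fin n) ℤ),
    (∀ h i j, j ≤ i → (ρ h - 1) i j = 0) ∧ ρ g ≠ 1

/-- The group algebra of `G` over `K` has no zero divisors. -/
def NoZD (K G : Type*) [Field K] [Group G] : Prop := NoZeroDivisors (MonoidAlgebra K G)

/-- A faithful action of `G` on a `p`-torsion-free, `p`-adically separated abelian group, trivial
modulo `p ^ e`. -/
def CongrAction (p e : ℕ) (G M : Type*) [Group G] [AddCommGroup M] [DistribMulAction G M] : Prop :=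
  (∀ m : M, p • m = 0 → m = 0) ∧
    (∀ m : M, (∀ s : ℕ, ∃ z : M, m = p ^ s • z) → m = 0) ∧
    (∀ (g : G) (m : M), ∃ z : M, g • m - m = p ^ e • z) ∧
    ∀ g : G, (∀ m : M, g • m = m) → g = 1

lemma df_aut_sub_mem {q : ℕ} {φ : MulAut N} (hφ : Triv q φ) (x : N) :
    df (φ x) - df x ∈ sub' (N := N) q 1 := by
  let S : Submodule ℤ (ZN N) := sub' q 1
  let δ : N →* Multiplicative (ZN N ⧸ S) :=
    { toFun := fun g => Multiplicative.ofAdd (Submodule.Quotient.mk (df g))
      map_one' := by simp [df, MonoidAlgebra.one_def]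
      map_mul' := fun a b => by
        rw [← ofAdd_add, ← Submodule.Quotient.mk_add]
        refine congrArg Multiplicative.ofAdd ((Submodule.Quotient.eq S).mpr ?_)
        rw [df_mul, add_sub_cancel_left]
        exact Submodule.mem_sup_right (df_mul_mem a (df_mem b)) }
  obtain ⟨y, hy⟩ := hφ x
  obtain ⟨z, rfl⟩ : ∃ z : N, Abelianization.of z = y := QuotientGroup.mk_surjective y
  have h1 := congrArg (Abelianization.lift δ) hy
  rw [map_mul, map_pow,
    Abelianization.lift_apply_of, Abelianization.lift_apply_of, Abelianization.lift_apply_of] at h1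
  have h2 : δ z ^ q = 1 := by
    show Multiplicative.ofAdd (Submodule.Quotient.mk (df z) : ZN N ⧸ S) ^ q = 1
    rw [← ofAdd_nsmul, ← Submodule.Quotient.mk_smul, ofAdd_eq_one, Submodule.Quotient.mk_eq_zero]
    exact mem_sub'.mpr ⟨df z, df_mem z, 0, Submodule.zero_mem _, by simp⟩
  rw [h2, mul_one] at h1
  exact (Submodule.Quotient.eq S).mp (Multiplicative.ofAdd.injective h1)

lemma aut_sub_mem {q : ℕ} {φ : MulAut N} (hφ : Triv q φ) :
    ∀ (k : ℕ) (z : ZN N), z ∈ ag k → aut φ z - z ∈ sub' q k := by
  intro k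
  induction k with
  | zero =>
    intro z _
    induction z using MonoidAlgebra.induction_linear with
    | zero => simp
    | add a b ha hb =>
      rw [map_add, add_sub_add_comm]; exact Submodule.add_mem _ (ha trivial) (hb trivial)
    | single g r =>
      have e : aut φ (single g r) - single g r = r • (df (φ g) - df g) := by
        rw [aut_single]; simp [df, smul_sub, smul_single]
      rw [e]
      exact Submodule.mem_sup_right
        (Submodule.smul_mem _ r (Submodule.sub_mem _ (df_mem _) (df_mem _)))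
  | succ k ih =>
    intro z hz
    induction hz using Submodule.span_induction with
    | mem x hx =>
      obtain ⟨g, y, hy, rfl⟩ := hx
      have e : aut φ (df g * y) - df g * y =
          (df (φ g) - df g) * aut φ y + df g * (aut φ y - y) := by
        rw [map_mul, aut_df, sub_mul, mul_sub]; abel
      rw [e]
      refine Submodule.add_mem _ ?_ (df_mul_sub' g (ih y hy))
      obtain ⟨a, ha, b, hb, hab⟩ := mem_sub'.mp (df_aut_sub_mem hφ g)
      rw [hab, add_mul, smul_mul_assoc]
      have hy' := aut_mem φ k y hy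
      refine mem_sub'.mpr ⟨a * aut φ y, ?_, b * aut φ y, ?_, rfl⟩
      · rw [Nat.add_comm]; exact mul_mem_ag 1 k a _ ha hy'
      · have := mul_mem_ag 2 k b _ hb hy'
        rwa [show k + 1 + 1 = 2 + k by omega]
    | zero => simp
    | add a b _ _ ha hb => rw [map_add, add_sub_add_comm]; exact Submodule.add_mem _ ha hb
    | smul c a _ ha => rw [map_smul, ← smul_sub]; exact Submodule.smul_mem _ c ha


/-- Evaluation of a function on the group algebra. -/
noncomputable def ev (f : N → ℤ) : ZN N →ₗ[ℤ] ℤ :=
  (Finsupp.linearCombination ℤ f).comp (MonoidAlgebra.coeffLinearEquiv ℤ).toLinearMap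

lemma ev_single (f : N → ℤ) (g : N) (r : ℤ) : ev f (single g r) = r * f g := by
  simp [ev, coeff_single]

/-- The lattice. -/
noncomputable def lat (N : Type*) [Group N] (q : ℕ) : AddSubgroup (N → ℤ) where
  carrier := {f | ∀ k, ∀ z ∈ ag (N := N) k, ((q ^ k : ℕ) : ℤ) ∣ ev f z}
  zero_mem' := fun k z _ => by
    rw [show ev (0 : N → ℤ) z = 0 by simp [ev, Finsupp.linearCombination_apply]]
    exact dvd_zero _
  add_mem' := fun {f f'} hf hf' k z hz => by
    rw [show ev (f + f') z = ev f z + ev f' z by
      simp [ev, Finsupp.linearCombination_apply, mul_add, Finsupp.sum_add]]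
    exact dvd_add (hf k z hz) (hf' k z hz)
  neg_mem' := fun {f} hf k z hz => by
    rw [show ev (-f) z = -ev f z by simp [ev, Finsupp.linearCombination_apply, Finsupp.sum]]
    exact (hf k z hz).neg_right

variable {H : Subgroup (MulAut N)}

/-- The affine action of the semidirect product on `N`. -/
def pt (g : N ⋊[H.subtype] H) (x : N) : N := g.left * (g.right : MulAut N) x

lemma pt_one (x : N) : pt (1 : N ⋊[H.subtype] H) x = x := by simp [pt]

lemma pt_mul (g g' : N ⋊[H.subtype] H) (x : N) : pt (g * g') x = pt g (pt g' x) := by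
  simp [pt, mul_assoc]

/-- The extension of `pt` to the group algebra. -/
noncomputable def ptAlg (g : N ⋊[H.subtype] H) (z : ZN N) : ZN N :=
  single g.left 1 * aut (g.right : MulAut N) z

lemma ev_pt (f : N → ℤ) (g : N ⋊[H.subtype] H) (z : ZN N) :
    ev (fun x => f (pt g x)) z = ev f (ptAlg g z) := by
  induction z using MonoidAlgebra.induction_linear with
  | zero => simp [ptAlg]
  | add a b ha hb => rw [ptAlg, map_add, map_add, ha, hb, mul_add, map_add]; rfl
  | single x r =>
    rw [ev_single, ptAlg, aut_single, single_mul_single, one_mul, ev_single]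
    rfl

lemma ptAlg_mem (g : N ⋊[H.subtype] H) {k : ℕ} {z : ZN N} (hz : z ∈ ag k) : ptAlg g z ∈ ag k :=
  mul_mem_ag_left k _ _ (aut_mem _ k z hz)

lemma ptAlg_sub_mem {q : ℕ} (hH : ∀ φ ∈ H, Triv q φ) (g : N ⋊[H.subtype] H) {k : ℕ} {z : ZN N}
    (hz : z ∈ ag k) : ptAlg g z - z ∈ sub' q k := by
  have e : ptAlg g z - z =
      df g.left * aut (g.right : MulAut N) z + (aut (g.right : MulAut N) z - z) := by
    rw [ptAlg, df, sub_mul, one_mul]; abel
  rw [e]
  exact Submodule.add_mem _ (Submodule.mem_sup_right (df_mul_mem _ (aut_mem _ k z hz)))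
    (aut_sub_mem (hH _ g.right.2) k z hz)

lemma pt_comp_mem {q : ℕ} (g : N ⋊[H.subtype] H) {f : N → ℤ} (hf : f ∈ lat N q) :
    (fun x => f (pt g x)) ∈ lat N q := fun k z hz => by
  rw [ev_pt]; exact hf k _ (ptAlg_mem g hz)

/-- The matrix is supported on the `k`-th diagonal above the main one and beyond. -/
def Up {n : ℕ} (k : ℕ) (A : Matrix (Fin n) (Fin n) ℤ) : Prop :=
  ∀ i j : Fin n, (j : ℕ) < i + k → A i j = 0

lemma up_of_mem {n : ℕ} (ρ : N →* Matrix (Fin n) (Fin n) ℤ)
    (hρ : ∀ x i j, j ≤ i → (ρ x - 1) i j = 0) :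
    ∀ (k : ℕ) (z : ZN N), z ∈ ag k → Up k (MonoidAlgebra.lift ℤ _ N ρ z) := by
  intro k
  induction k with
  | zero =>
    intro z _
    induction z using MonoidAlgebra.induction_linear with
    | zero => simp [Up]
    | add a b ha hb =>
      intro i j h
      rw [map_add, Matrix.add_apply, ha trivial i j h, hb trivial i j h, add_zero]
    | single g r =>
      intro i j h
      have h1 := hρ g i j (by rw [Fin.le_def]; omega)
      rw [Matrix.sub_apply, Matrix.one_apply_ne (by rw [Ne, Fin.ext_iff]; omega), sub_zero] at h1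
      simp [MonoidAlgebra.lift_single, Matrix.smul_apply, h1]
  | succ k ih =>
    intro z hz
    induction hz using Submodule.span_induction with
    | mem x hx =>
      obtain ⟨g, y, hy, rfl⟩ := hx
      intro i j h
      rw [map_mul, Matrix.mul_apply]
      refine Finset.sum_eq_zero fun l _ => ?_
      have hd : MonoidAlgebra.lift ℤ _ N ρ (df g) = ρ g - 1 := by
        simp [df, MonoidAlgebra.lift_single]
      rcases Nat.lt_or_ge i.val l.val with hl | hl
      · rw [ih y hy l j (by omega), mul_zero]
      · rw [hd, hρ g i l (Fin.le_def.mpr hl), zero_mul]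
    | zero => simp [Up]
    | add a b _ _ ha hb =>
      intro i j h
      rw [map_add, Matrix.add_apply, ha i j h, hb i j h, add_zero]
    | smul c a _ ha =>
      intro i j h
      rw [map_smul, Matrix.smul_apply, ha i j h, smul_zero]

lemma exists_lat_separating {q : ℕ} (hq : q ≠ 0)
    (hN : UTSep N)
    {a b : N} (hab : a ≠ b) : ∃ f ∈ lat N q, f a ≠ f b := by
  obtain ⟨n, ρ, hρ, hne⟩ := hN (a⁻¹ * b) (fun h => hab (inv_mul_eq_one.mp h))
  have hne' : ρ a ≠ ρ b := fun h => hne (by
    rw [map_mul, ← h, ← map_mul, inv_mul_cancel, map_one])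
  obtain ⟨i, j, hij⟩ : ∃ i j, ρ a i j ≠ ρ b i j := by
    by_contra hcon
    push Not at hcon
    exact hne' (Matrix.ext hcon)
  refine ⟨fun x => (q ^ n : ℕ) * ρ x i j, fun k z hz => ?_, fun h => hij ?_⟩
  · have key : ev (fun x => ((q ^ n : ℕ) : ℤ) * ρ x i j) z =
        ((q ^ n : ℕ) : ℤ) * MonoidAlgebra.lift ℤ _ N ρ z i j := by
      clear hz
      induction z using MonoidAlgebra.induction_linear with
      | zero => simp
      | add a b ha hb => rw [map_add, map_add, ha, hb, Matrix.add_apply, mul_add]
      | single g r =>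
        rw [ev_single, MonoidAlgebra.lift_single, Matrix.smul_apply, smul_eq_mul]
        ring
    rw [key]
    rcases Nat.lt_or_ge n k with hk | hk
    · rw [up_of_mem ρ hρ k z hz i j (by omega), mul_zero]
      exact dvd_zero _
    · exact (Int.natCast_dvd_natCast.mpr (pow_dvd_pow q hk)).mul_right _
  · exact mul_left_cancel₀ (Nat.cast_ne_zero.mpr (pow_ne_zero n hq)) h

/-- **Congruence subgroups of holomorphs.** -/
theorem noZeroDivisors_holomorph.{u} {p e : ℕ} [Fact p.Prime] (he : 2 < p ^ e)
    (hN : UTSep N)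
    (H : Subgroup (MulAut N)) (hH : ∀ φ ∈ H, Triv (p ^ e) φ)
    (K : Type u) [Field K] (hK : CharP K p ∨ CharZero K) :
    NoZeroDivisors (MonoidAlgebra K (N ⋊[H.subtype] H)) := by
  have hq : p ^ e ≠ 0 := by omega
  letI : DistribMulAction (N ⋊[H.subtype] H) (lat N (p ^ e)) :=
    { smul := fun g f => ⟨fun x => (f : N → ℤ) (pt g⁻¹ x), pt_comp_mem g⁻¹ f.2⟩
      one_smul := fun f => Subtype.ext (funext fun x => by
        show (f : N → ℤ) (pt (1 : N ⋊[H.subtype] H)⁻¹ x) = (f : N → ℤ) x
        rw [inv_one, pt_one])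
      mul_smul := fun g g' f => Subtype.ext (funext fun x => by
        show (f : N → ℤ) (pt (g * g')⁻¹ x) = (f : N → ℤ) (pt g'⁻¹ (pt g⁻¹ x))
        rw [mul_inv_rev, pt_mul])
      smul_zero := fun g => Subtype.ext (funext fun x => rfl)
      smul_add := fun g f f' => Subtype.ext (funext fun x => rfl) }
  refine noZeroDivisors_of_congruence (p := p) (e := e) (M := lat N (p ^ e)) he (fun f hf => ?_)
    (fun f hf => ?_) (fun g f => ?_) (fun g hg => ?_) K hK
  · refine Subtype.ext (funext fun x => ?_)
    have := congrFun (congrArg Subtype.val hf) x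
    simp only [AddSubgroup.coe_nsmul, nsmul_eq_mul, Pi.mul_apply, Pi.natCast_apply,
      AddSubgroup.coe_zero, Pi.zero_apply] at this
    exact (mul_eq_zero.mp this).resolve_left (Nat.cast_ne_zero.mpr (Fact.out : p.Prime).ne_zero)
  · refine Subtype.ext (funext fun x => ?_)
    set n := (f : N → ℤ) x with hn
    obtain ⟨y, hy⟩ := hf n.natAbs
    have h1 := congrFun (congrArg Subtype.val hy) x
    simp only [AddSubgroup.coe_nsmul, nsmul_eq_mul, Pi.mul_apply, Pi.natCast_apply,
      AddSubgroup.coe_zero, Pi.zero_apply] at h1 ⊢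
    rw [← hn] at h1
    have hdvd : p ^ n.natAbs ∣ n.natAbs := Int.natCast_dvd.mp (Dvd.intro _ h1.symm)
    by_contra h0
    have h4 := Nat.le_of_dvd (Int.natAbs_pos.mpr h0) hdvd
    have h5 := Nat.lt_pow_self (n := n.natAbs) (Fact.out : p.Prime).one_lt
    omega
  · have hd : ∀ k, ∀ z ∈ ag k, ((p ^ e * (p ^ e) ^ k : ℕ) : ℤ) ∣
        ev (f : N → ℤ) (ptAlg g⁻¹ z - z) := by
      intro k z hz
      obtain ⟨a, ha, b, hb, hab⟩ := mem_sub'.mp (ptAlg_sub_mem hH g⁻¹ hz)
      rw [hab, map_add, map_smul, smul_eq_mul, Nat.cast_mul]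
      refine dvd_add (mul_dvd_mul_left _ (f.2 k a ha)) ?_
      have := f.2 (k + 1) b hb
      rwa [pow_succ', Nat.cast_mul] at this
    have hx : ∀ x, ((p ^ e : ℕ) : ℤ) ∣ (f : N → ℤ) (pt g⁻¹ x) - (f : N → ℤ) x := fun x => by
      have h := hd 0 (single x 1) trivial
      rw [pow_zero, mul_one, map_sub, ← ev_pt, ev_single, ev_single, one_mul, one_mul] at h
      exact h
    choose y hy using hx
    refine ⟨⟨y, fun k z hz => ?_⟩, Subtype.ext (funext fun x => ?_)⟩
    · have e1 : ((p ^ e : ℕ) : ℤ) * ev y z = ev (f : N → ℤ) (ptAlg g⁻¹ z - z) := by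
        rw [map_sub, ← ev_pt]
        clear hz
        induction z using MonoidAlgebra.induction_linear with
        | zero => simp
        | add a b ha hb => rw [map_add, mul_add, ha, hb, map_add, map_add]; ring
        | single x r => rw [ev_single, ev_single, ev_single, ← mul_sub, hy]; ring
      have h := hd k z hz
      rw [← e1, Nat.cast_mul] at h
      exact (mul_dvd_mul_iff_left (Nat.cast_ne_zero.mpr hq)).mp h
    · show (f : N → ℤ) (pt g⁻¹ x) - (f : N → ℤ) x = _
      simp [hy x]
  · -- faithfulness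
    have hfix : ∀ x, pt g⁻¹ x = x := by
      intro x
      by_contra hx
      obtain ⟨f, hf, hne⟩ := exists_lat_separating hq hN hx
      exact hne (congrFun (congrArg Subtype.val (hg ⟨f, hf⟩)) x)
    have hl : (g⁻¹).left = 1 := by simpa [pt] using hfix 1
    have hr : (g⁻¹).right = 1 := Subtype.ext (MulEquiv.ext fun x => by
      simpa [pt, hl] using hfix x)
    exact inv_eq_one.mp (SemidirectProduct.ext hl hr)

end Vale.Agent.P201.Congr.Holo
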