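import Vale.Agent.P201.Congr.Cyclic

/-!
# Automorphisms fixing all cyclic coefficients are inner
-/

namespace Vale.Agent.P201.Congr

variable {α : Type*}

lemma TraceEq.trans' {g h k : FreeGroup α} (h1 : TraceEq g h) (h2 : TraceEq h k) : TraceEq g k :=
  fun v => (h1 v).trans (h2 v)

lemma runProd_singleton (a : α) (n : ℤ) : runProd [(a, n)] = FreeGroup.of a ^ n := by simp [runProd]

lemma runProd_append (l l' : List (α × ℤ)) : runProd (l ++ l') = runProd l * runProd l' := by
  simp [runProd]

/-- The inverse word. -/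
def invRuns (l : List (α × ℤ)) : List (α × ℤ) := (l.map fun x => (x.1, -x.2)).reverse

lemma runProd_invRuns (l : List (α × ℤ)) : runProd (invRuns l) = (runProd l)⁻¹ := by
  induction l with
  | nil => simp [runProd, invRuns]
  | cons x t ih =>
    rw [invRuns, List.map_cons, List.reverse_cons, runProd_append, ← invRuns, ih]
    simp [runProd, zpow_neg]

/-- An element trace-equal to a generator is conjugate to it. -/
lemma conj_of_traceEq_gen {g : FreeGroup α} (a : α) (h : TraceEq g (FreeGroup.of a)) :
    ∃ u, g = u * FreeGroup.of a * u⁻¹ := by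
  classical
  obtain ⟨u, l, rfl, hl, hshape⟩ := exists_cyclicRuns g
  have h' : TraceEq (runProd l) (runProd [(a, (1 : ℤ))]) := by
    rw [runProd_singleton, zpow_one]; exact h.conj_left
  have hlen : l.length ≤ 1 := by
    rcases hshape with h1 | h1
    · exact h1
    · exact (length_le_of_traceEq h1 ⟨by simp, by simp⟩ h').trans (by simp)
  cases l with
  | nil =>
    exfalso
    have := h' [a]
    rw [cyc_singleton, cyc_singleton, runProd_singleton, zpow_one, magnus_of] at this
    simp [runProd, letter] at this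
  | cons x t =>
    obtain ⟨b, n⟩ := x
    obtain rfl : t = [] := List.length_eq_zero_iff.mp (by simpa using hlen)
    have h1 := h' [a]
    rw [cyc_singleton, cyc_singleton, runProd_singleton, runProd_singleton, zpow_one, magnus_of]
      at h1
    have hR : (1 + letter a : Ser α).co [a] = 1 := by simp [letter]
    rw [hR] at h1
    have h2 : b = a := by
      by_contra hb
      have := (magnus_zpow b n).1 [a] ⟨a, by simp, Ne.symm hb⟩
      rw [this] at h1
      exact zero_ne_one h1
    subst h2
    rw [(magnus_zpow b n).2] at h1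
    have hn : n = 1 := by exact_mod_cast h1
    exact ⟨u, by rw [runProd_singleton, hn, zpow_one]⟩

/-- If `a * (w b w⁻¹)` looks like `a b` then `w` is `a ^ i * b ^ j`. -/
lemma form_of_traceEq_two {a b : α} (hab : a ≠ b) {w : FreeGroup α}
    (h : TraceEq (FreeGroup.of a * (w * FreeGroup.of b * w⁻¹)) (FreeGroup.of a * FreeGroup.of b)) :
    ∃ i : ℤ, w * FreeGroup.of b * w⁻¹ =
      FreeGroup.of a ^ i * FreeGroup.of b * (FreeGroup.of a ^ i)⁻¹ := by
  classical
  obtain ⟨L, hL, hwL⟩ := exists_runs w [] ⟨by simp, by simp⟩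
  rw [show runProd ([] : List (α × ℤ)) = 1 from rfl, mul_one] at hwL
  -- split off powers of `a` on the left and of `b` on the right
  obtain ⟨i, L₁, hL₁, hhead, hL₁w⟩ : ∃ (i : ℤ) (L₁ : List (α × ℤ)), IsRuns L₁ ∧
      (∀ y ∈ L₁.head?, a ≠ y.1) ∧ runProd L = FreeGroup.of a ^ i * runProd L₁ := by
    cases L with
    | nil => exact ⟨0, [], hL, by simp, by simp⟩
    | cons x t =>
      obtain ⟨c, n⟩ := x
      by_cases hc : a = c
      · subst hc
        refine ⟨n, t, ⟨hL.1.tail, fun y hy => hL.2 y (by simp [hy])⟩, ?_, by simp [runProd]⟩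
        cases t with
        | nil => simp
        | cons y t =>
          simp only [List.head?_cons, Option.mem_def, Option.some.injEq, forall_eq']
          exact (List.isChain_cons_cons.mp hL.1).1
      · exact ⟨0, _, hL, by simpa using hc, by simp⟩
  obtain ⟨j, m, hm, hmhead, hmlast, hmw⟩ : ∃ (j : ℤ) (m : List (α × ℤ)), IsRuns m ∧
      (∀ y ∈ m.head?, a ≠ y.1) ∧ (∀ y ∈ m.getLast?, y.1 ≠ b) ∧
      runProd L₁ = runProd m * FreeGroup.of b ^ j := by
    by_cases hlast : ∀ y ∈ L₁.getLast?, y.1 ≠ b
    · exact ⟨0, L₁, hL₁, hhead, hlast, by simp⟩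
    simp only [not_forall, not_not] at hlast
    obtain ⟨⟨c, n⟩, hy, hc⟩ := hlast
    simp only at hc; subst hc
    have hne : L₁ ≠ [] := fun h => by simp [h] at hy
    have hlastE : L₁.getLast hne = (c, n) := by
      rw [List.getLast?_eq_some_getLast hne] at hy; simpa using hy
    have hdec : L₁.dropLast ++ [(c, n)] = L₁ := by rw [← hlastE, List.dropLast_append_getLast hne]
    refine ⟨n, L₁.dropLast, ⟨?_, fun y hy' => hL₁.2 y (List.dropLast_subset _ hy')⟩, ?_, ?_,
      by conv_lhs => rw [← hdec, runProd_append, runProd_singleton]⟩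
    · have := hL₁.1; rw [← hdec] at this; exact this.left_of_append
    · intro y hy'
      refine hhead y ?_
      rw [← hdec]
      cases hd : L₁.dropLast with
      | nil => simp [hd] at hy'
      | cons z t => simpa [hd] using hy'
    · intro y hy' hyb
      have hch := hL₁.1
      rw [← hdec] at hch
      exact (List.isChain_append.mp hch).2.2 y hy' (c, n) (by simp) hyb
  have hconj : w * FreeGroup.of b * w⁻¹ = FreeGroup.of a ^ i *
      (runProd m * FreeGroup.of b * (runProd m)⁻¹) * (FreeGroup.of a ^ i)⁻¹ := by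
    rw [← hwL, hL₁w, hmw]
    group
  suffices hm0 : m = [] by
    refine ⟨i, ?_⟩
    rw [hconj, hm0]
    simp [runProd]
  set l := (a, (1 : ℤ)) :: (m ++ ((b, (1 : ℤ)) :: invRuns m)) with hldef
  have hinvhead : ∀ y ∈ (invRuns m).head?, b ≠ y.1 := by
    intro y hy
    simp only [invRuns, List.head?_reverse, List.getLast?_map, Option.mem_def,
      Option.map_eq_some_iff] at hy
    obtain ⟨x, hx, rfl⟩ := hy
    exact Ne.symm (hmlast x hx)
  have hl : IsCyclicRuns l := by
    refine ⟨⟨?_, ?_⟩, ?_⟩
    · have hinv : (invRuns m).IsChain (fun x y => x.1 ≠ y.1) := by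
        rw [invRuns, List.isChain_reverse]
        refine (List.isChain_map (fun x : α × ℤ => (x.1, -x.2))).mpr ?_
        exact hm.1.imp fun x y h => Ne.symm h
      have h2 : ((b, (1 : ℤ)) :: invRuns m).IsChain (fun x y => x.1 ≠ y.1) :=
        List.isChain_cons.mpr ⟨fun y hy => hinvhead y hy, hinv⟩
      refine List.isChain_cons.mpr ⟨fun y hy => ?_, List.isChain_append.mpr ⟨hm.1, h2,
        fun x hx y hy => ?_⟩⟩
      · cases m with
        | nil => simp at hy; subst hy; exact hab
        | cons z t => simp at hy; subst hy; exact hmhead _ (by simp)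
      · simp at hy; subst hy; exact hmlast x hx
    · intro x hx
      simp only [hldef, List.mem_cons, List.mem_append, invRuns, List.mem_reverse,
        List.mem_map] at hx
      rcases hx with rfl | hx | rfl | ⟨y, hy, rfl⟩
      · exact one_ne_zero
      · exact hm.2 x hx
      · exact one_ne_zero
      · exact neg_ne_zero.mpr (hm.2 y hy)
    · intro x hx y hy
      simp only [hldef, List.head?_cons, Option.mem_def, Option.some.injEq] at hy
      subst hy
      rcases m with _ | ⟨z, t⟩
      · simp [hldef, invRuns] at hx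
        subst hx
        exact Ne.symm hab
      · have : l.getLast? = some (z.1, -z.2) := by
          simp [hldef, invRuns, List.getLast?_cons, List.getLast?_append]
        rw [this, Option.mem_def, Option.some.injEq] at hx
        subst hx
        exact Ne.symm (hmhead z (by simp))
  have hrp : runProd l = FreeGroup.of a * (runProd m * FreeGroup.of b * (runProd m)⁻¹) := by
    rw [hldef, show ((a, (1 : ℤ)) :: (m ++ ((b, (1 : ℤ)) :: invRuns m))) =
      [(a, (1 : ℤ))] ++ (m ++ ([(b, (1 : ℤ))] ++ invRuns m)) from rfl, runProd_append, runProd_append,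
      runProd_append, runProd_singleton, runProd_singleton, runProd_invRuns, zpow_one, zpow_one]
    simp [mul_assoc]
  have htr : TraceEq (runProd l) (runProd [(a, (1 : ℤ)), (b, (1 : ℤ))]) := by
    intro v
    rw [show runProd [(a, (1 : ℤ)), (b, (1 : ℤ))] = FreeGroup.of a * FreeGroup.of b by simp [runProd],
      ← h v, hrp, hconj, ← cyc_conj (FreeGroup.of a ^ i)]
    congr 3
    group
  have hlen := length_le_of_traceEq hl
    ⟨by simpa using hab, by simp⟩ htr
  simp [hldef, invRuns] at hlen
  exact List.length_eq_zero_iff.mp (by omega)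

/-- **Inner automorphisms are detected by cyclic coefficients.** -/
theorem inner_of_traceEq (φ : MulAut (FreeGroup α)) (h : ∀ g, TraceEq (φ g) g) :
    ∃ c, φ = MulAut.conj c := by
  classical
  rcases isEmpty_or_nonempty α with hα | ⟨⟨a⟩⟩
  · exact ⟨1, MulEquiv.toMonoidHom_injective (FreeGroup.ext_hom _ _ fun x => hα.elim x)⟩
  obtain ⟨u, hu⟩ := conj_of_traceEq_gen a (h (FreeGroup.of a))
  -- normalise so that `a` is fixed
  let ψ : MulAut (FreeGroup α) := (MulAut.conj u)⁻¹ * φ
  have hψ : ∀ g, ψ g = u⁻¹ * φ g * u := fun g => by simp [ψ]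
  have hψa : ψ (FreeGroup.of a) = FreeGroup.of a := by rw [hψ, hu]; group
  have hψt : ∀ g, TraceEq (ψ g) g := fun g v => by
    have := cyc_conj u⁻¹ (φ g) v
    rw [inv_inv] at this
    rw [hψ, this, h g v]
  have hb : ∀ b, b ≠ a → ∃ i : ℤ, ψ (FreeGroup.of b) =
      FreeGroup.of a ^ i * FreeGroup.of b * (FreeGroup.of a ^ i)⁻¹ := by
    intro b hba
    obtain ⟨w, hw⟩ := conj_of_traceEq_gen b (hψt (FreeGroup.of b))
    have h2 := hψt (FreeGroup.of a * FreeGroup.of b)
    rw [map_mul, hψa, hw] at h2
    obtain ⟨i, hi⟩ := form_of_traceEq_two (Ne.symm hba) h2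
    exact ⟨i, hw.trans hi⟩
  choose i hi using hb
  -- the exponents agree
  have heq : ∀ b hb c hc, b ≠ c → i b hb = i c hc := by
    intro b hb c hc hbc
    by_contra hne
    have h2 := hψt (FreeGroup.of b * FreeGroup.of c)
    rw [map_mul, hi b hb, hi c hc] at h2
    set k := i c hc - i b hb
    have hk : k ≠ 0 := sub_ne_zero.mpr (Ne.symm hne)
    let l : List (α × ℤ) := [(b, (1 : ℤ)), (a, k), (c, (1 : ℤ)), (a, -k)]
    have hl : IsCyclicRuns l := by
      refine ⟨⟨?_, ?_⟩, ?_⟩
      · simp [l, hb, hc, Ne.symm hb, Ne.symm hc]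
      · simp [l, hk]
      · simp [l, Ne.symm hb]
    have htr : TraceEq (runProd l) (runProd [(b, (1 : ℤ)), (c, (1 : ℤ))]) := by
      intro v
      rw [show runProd [(b, (1 : ℤ)), (c, (1 : ℤ))] = FreeGroup.of b * FreeGroup.of c by
        simp [runProd], ← h2 v, ← cyc_conj (FreeGroup.of a ^ i b hb)]
      congr 3
      simp only [l, runProd, List.map_cons, List.map_nil, List.prod_cons, List.prod_nil, mul_one,
        zpow_one, k]
      group
    have := length_le_of_traceEq hl ⟨by simpa using hbc, by simp⟩ htr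
    simp [l] at this
  obtain ⟨e, he⟩ : ∃ e : ℤ, ∀ b hb, i b hb = e := by
    by_cases hex : ∃ b, b ≠ a
    · obtain ⟨b, hb⟩ := hex
      refine ⟨i b hb, fun c hc => ?_⟩
      by_cases hcb : c = b
      · subst hcb; rfl
      · exact heq c hc b hb hcb
    · exact ⟨0, fun b hb => absurd ⟨b, hb⟩ hex⟩
  have hψc : ψ = MulAut.conj (FreeGroup.of a ^ e) := by
    refine MulEquiv.toMonoidHom_injective (FreeGroup.ext_hom _ _ fun b => ?_)
    show ψ (FreeGroup.of b) = MulAut.conj (FreeGroup.of a ^ e) (FreeGroup.of b)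
    rw [MulAut.conj_apply]
    by_cases hba : b = a
    · subst hba; rw [hψa]; group
    · rw [hi b hba, he]
  refine ⟨u * FreeGroup.of a ^ e, ?_⟩
  rw [map_mul, ← hψc]
  simp [ψ]

end Vale.Agent.P201.Congr
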