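import Vale.Agent.P201.Congr.Moments

/-!
# Groups acting on a lattice trivially modulo a prime power
-/

namespace Vale.Agent.P201.Congr

open Finset

universe v w w'

variable {p e : ℕ} {G : Type v} {M : Type w} [Group G] [AddCommGroup M] [DistribMulAction G M]

/-- Lifts of a basis of `M / p M` give coordinates modulo every power of `p`. -/
lemma exists_coords_aux [hp : Fact p.Prime] (htf : ∀ m : M, p • m = 0 → m = 0)
    {V : Type w'} [AddCommGroup V] [Module (ZMod p) V] (π : M →+ V) (hπ : Function.Surjective π)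
    (hker : ∀ m, π m = 0 ↔ ∃ z, p • z = m) :
    ∃ (I : Type w') (β : I → M),
      (∀ (s : ℕ) (m : M), ∃ (c : I →₀ ℤ) (y : M),
        m = Finsupp.linearCombination ℤ β c + p ^ s • y) ∧
      ∀ (s : ℕ) (c : I →₀ ℤ) (y : M), Finsupp.linearCombination ℤ β c = p ^ s • y →
        ∀ i, ((p ^ s : ℕ) : ℤ) ∣ c i := by
  classical
  let bV := Module.Basis.ofVectorSpace (ZMod p) V
  choose β hβ using fun i => hπ (bV i)
  have hmk : ∀ c : _ →₀ ℤ, π (Finsupp.linearCombination ℤ β c) =
      Finsupp.linearCombination (ZMod p) bV (c.mapRange (Int.cast : ℤ → ZMod p) Int.cast_zero) := by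
    intro c
    induction c using Finsupp.induction_linear with
    | zero => simp
    | add a b ha hb =>
      rw [map_add, map_add, ha, hb, Finsupp.mapRange_add (fun x y => Int.cast_add x y),
        map_add]
    | single i n =>
      rw [Finsupp.linearCombination_single, Finsupp.mapRange_single,
        Finsupp.linearCombination_single, Int.cast_smul_eq_zsmul, map_zsmul, hβ]
  refine ⟨_, β, fun s => ?_, fun s => ?_⟩
  · induction s with
    | zero => intro m; exact ⟨0, m, by simp⟩
    | succ s ih =>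
      intro m
      obtain ⟨c, y, hm⟩ := ih m
      let d := (bV.repr (π y)).mapRange (fun t : ZMod p => (t.val : ℤ)) (by simp)
      have hd : π (Finsupp.linearCombination ℤ β d) = π y := by
        rw [hmk, show d.mapRange (Int.cast : ℤ → ZMod p) Int.cast_zero = bV.repr (π y) by
          ext i; simp [d], bV.linearCombination_repr]
      obtain ⟨z, hz⟩ : ∃ z, p • z = y - Finsupp.linearCombination ℤ β d := by
        exact (hker _).mp (by rw [map_sub, hd, sub_self])
      refine ⟨c + ((p ^ s : ℕ) : ℤ) • d, z, ?_⟩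
      rw [hm, map_add, map_smul, natCast_zsmul, pow_succ, mul_smul, hz, smul_sub]
      abel
  · induction s with
    | zero => intro c y _ i; simp
    | succ s ih =>
      intro c y h i
      have h0 : c.mapRange (Int.cast : ℤ → ZMod p) Int.cast_zero = 0 := by
        apply bV.linearIndependent.finsuppLinearCombination_injective
        rw [← hmk, map_zero, hker]
        exact ⟨p ^ s • y, by rw [smul_smul, ← pow_succ', h]⟩
      have hdiv : ∀ i, (p : ℤ) ∣ c i := fun i =>
        (ZMod.intCast_zmod_eq_zero_iff_dvd _ _).mp (by simpa using DFunLike.congr_fun h0 i)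
      let c' := c.mapRange (fun x : ℤ => x / p) (by simp)
      have hc : c = (p : ℤ) • c' := by
        ext i; simp [c', Int.mul_ediv_cancel' (hdiv i)]
      have h1 : p • (Finsupp.linearCombination ℤ β c' - p ^ s • y) = 0 := by
        rw [smul_sub, smul_smul, ← pow_succ', sub_eq_zero, ← h, hc, map_smul, natCast_zsmul]
      have h2 := ih c' y (sub_eq_zero.mp (htf _ h1)) i
      rw [hc, Finsupp.smul_apply, smul_eq_mul, pow_succ', Nat.cast_mul]
      exact mul_dvd_mul_left _ h2

/-- Coordinates modulo every power of `p`. -/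
lemma exists_coords [hp : Fact p.Prime] (htf : ∀ m : M, p • m = 0 → m = 0) :
    ∃ (I : Type w) (β : I → M),
      (∀ (s : ℕ) (m : M), ∃ (c : I →₀ ℤ) (y : M),
        m = Finsupp.linearCombination ℤ β c + p ^ s • y) ∧
      ∀ (s : ℕ) (c : I →₀ ℤ) (y : M), Finsupp.linearCombination ℤ β c = p ^ s • y →
        ∀ i, ((p ^ s : ℕ) : ℤ) ∣ c i := by
  let S : AddSubgroup M := (nsmulAddMonoidHom (α := M) p).range
  have hV : ∀ x : M ⧸ S, p • x = 0 := fun x => by
    obtain ⟨m, rfl⟩ := QuotientAddGroup.mk_surjective x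
    rw [← QuotientAddGroup.mk_nsmul, QuotientAddGroup.eq_zero_iff]
    exact ⟨m, rfl⟩
  exact @exists_coords_aux p M _ hp htf (M ⧸ S) _ (AddCommGroup.zmodModule hV)
    (QuotientAddGroup.mk' S) (QuotientAddGroup.mk'_surjective S)
    fun m => (QuotientAddGroup.eq_zero_iff m).trans ⟨fun ⟨z, hz⟩ => ⟨z, hz⟩, fun ⟨z, hz⟩ => ⟨z, hz⟩⟩

/-- Cancelling a power of `p`. -/
lemma eq_of_pow_smul_eq (htf : ∀ m : M, p • m = 0 → m = 0) : ∀ (n : ℕ) (a b : M),
    p ^ n • a = p ^ n • b → a = b := by
  intro n
  induction n with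
  | zero => intro a b h; simpa using h
  | succ n ih =>
    intro a b h
    rw [pow_succ', mul_smul, mul_smul, ← sub_eq_zero, ← smul_sub] at h
    exact ih a b (sub_eq_zero.mp (htf _ h))

/-- The congruence action gives coordinates. -/
theorem hasCoordinates_of_congruence [hp : Fact p.Prime] (htf : ∀ m : M, p • m = 0 → m = 0)
    (hsep : ∀ m : M, (∀ s : ℕ, ∃ y : M, m = p ^ s • y) → m = 0)
    (hcong : ∀ (g : G) (m : M), ∃ y : M, g • m - m = p ^ e • y)
    (hfaith : ∀ g : G, (∀ m : M, g • m = m) → g = 1) (P Q : Finset G) :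
    ∃ (I : Type w) (s₀ : ℕ), ∀ s, s₀ ≤ s → ∃ X : I → G → ℕ,
      (∀ u, ∃ W : List (I × I), ∀ g ∈ P, ∀ h ∈ Q, X u (g * h) ≡
        X u g + X u h + p ^ e * (W.map fun t => X t.1 g * X t.2 h).sum [MOD p ^ s]) ∧
      (∀ g ∈ P, ∀ g' ∈ P, g ≠ g' → ∃ u, ¬ X u g ≡ X u g' [MOD p ^ s₀]) ∧
      ∀ g ∈ Q, ∀ g' ∈ Q, g ≠ g' → ∃ u, ¬ X u g ≡ X u g' [MOD p ^ s₀] := by
  classical
  obtain ⟨I, β, hex, huniq⟩ := exists_coords (p := p) htf
  choose v hv using hcong
  have hv' : ∀ g m, g • m = m + p ^ e • v g m := fun g m => by rw [← hv g m]; abel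
  choose c y hc using hex
  have hv_mul : ∀ g h m, v (g * h) m = v g m + g • v h m := by
    intro g h m
    refine eq_of_pow_smul_eq htf e _ _ ?_
    have h1 : (g * h) • m = g • (h • m) := mul_smul g h m
    rw [hv', hv' h, smul_add, smul_comm g (p ^ _ : ℕ), hv' g m] at h1
    rw [smul_add]
    have := add_left_cancel (a := m) (h1.trans (add_assoc _ _ _))
    exact this
  -- the level detecting a difference
  have hdet : ∀ g g' : G, g ≠ g' → ∃ s₀, ∀ s, s₀ ≤ s → ∃ a w,
      ¬ ((p ^ s₀ : ℕ) : ℤ) ∣ c s (v g (β a)) w - c s (v g' (β a)) w := by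
    intro g g' hne
    obtain ⟨m, hm⟩ : ∃ m, g • m ≠ g' • m := by
      by_contra hall
      push Not at hall
      refine hne (inv_mul_eq_one.mp (hfaith (g⁻¹ * g') fun m => ?_))
      rw [mul_smul, ← hall m, inv_smul_smul]
    obtain ⟨s₀, hs₀⟩ : ∃ s₀, ∀ z, g • m - g' • m ≠ p ^ s₀ • z := by
      by_contra hall
      push Not at hall
      exact hm (sub_eq_zero.mp (hsep _ hall))
    refine ⟨s₀, fun s hs => ?_⟩
    by_contra hall
    push Not at hall
    -- every difference of the displacements is divisible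
    have hS : ∀ a, ∃ z, v g (β a) - v g' (β a) = p ^ s₀ • z := by
      intro a
      have hd := hall a
      let d := (c s (v g (β a)) - c s (v g' (β a))).mapRange (fun x : ℤ => x / (p ^ s₀ : ℕ))
        (by simp)
      have hd' : c s (v g (β a)) - c s (v g' (β a)) = ((p ^ s₀ : ℕ) : ℤ) • d := by
        ext w; simp only [d, Finsupp.smul_apply, Finsupp.mapRange_apply, Finsupp.sub_apply,
          smul_eq_mul]
        exact (Int.mul_ediv_cancel' (hd w)).symm
      refine ⟨Finsupp.linearCombination ℤ β d +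
        p ^ (s - s₀) • (y s (v g (β a)) - y s (v g' (β a))), ?_⟩
      rw [smul_add, smul_smul, ← pow_add, Nat.add_sub_cancel' hs, ← natCast_zsmul _ (p ^ s₀),
        ← map_smul, ← hd', map_sub, smul_sub]
      conv_lhs => rw [hc s (v g (β a)), hc s (v g' (β a))]
      abel
    choose z hz using hS
    -- so `g` and `g'` agree modulo `p ^ s₀` on every element
    have hlin : ∀ d : I →₀ ℤ, ∃ z, g • Finsupp.linearCombination ℤ β d -
        g' • Finsupp.linearCombination ℤ β d = p ^ s₀ • z := by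
      intro d
      induction d using Finsupp.induction_linear with
      | zero => exact ⟨0, by simp⟩
      | add d d' hd hd' =>
        obtain ⟨z, hz⟩ := hd
        obtain ⟨z', hz'⟩ := hd'
        exact ⟨z + z', by rw [map_add, smul_add, smul_add, smul_add, ← hz, ← hz']; abel⟩
      | single a n =>
        refine ⟨n • (p ^ e • z a), ?_⟩
        rw [Finsupp.linearCombination_single, smul_comm g n, smul_comm g' n, ← zsmul_sub, hv', hv',
          add_sub_add_left_eq_sub, ← smul_sub, hz, smul_comm (p ^ s₀) n, smul_comm (p ^ e) (p ^ s₀)]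
    obtain ⟨z', hz'⟩ := hlin (c s₀ m)
    refine hs₀ (z' + (g • y s₀ m - g' • y s₀ m)) ?_
    conv_lhs => rw [hc s₀ m]
    rw [smul_add, smul_add, smul_comm g (p ^ s₀ : ℕ), smul_comm g' (p ^ s₀ : ℕ), smul_add, smul_sub, ← hz']
    abel
  choose lev hlev using hdet
  let S₀ : ℕ := ((P ×ˢ P) ∪ (Q ×ˢ Q)).sup fun x => if h : x.1 = x.2 then 0 else lev x.1 x.2 h
  refine ⟨I × I, S₀, fun s hs => ?_⟩
  let Z : I × I → G → ℤ := fun u g => c s (v g (β u.1)) u.2
  refine ⟨fun u g => (Z u g % ((p ^ s : ℕ) : ℤ)).toNat, ?_, ?_, ?_⟩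
  · rintro ⟨a, w⟩
    let U := Q.biUnion fun h => (c s (v h (β a))).support
    refine ⟨U.toList.map fun u => ((u, w), (a, u)), fun g _ h hh => ?_⟩
    have key : ((p ^ s : ℕ) : ℤ) ∣ Z (a, w) (g * h) - (Z (a, w) g + Z (a, w) h +
        ((p ^ e : ℕ) : ℤ) * ∑ u ∈ U, Z (u, w) g * Z (a, u) h) := by
      let E := c s (v (g * h) (β a)) - (c s (v g (β a)) + c s (v h (β a)) +
        ∑ u ∈ U, (((p ^ e : ℕ) : ℤ) * c s (v h (β a)) u) • c s (v g (β u)))
      have hE : E w = Z (a, w) (g * h) - (Z (a, w) g + Z (a, w) h +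
          ((p ^ e : ℕ) : ℤ) * ∑ u ∈ U, Z (u, w) g * Z (a, u) h) := by
        simp only [E, Z, Finsupp.sub_apply, Finsupp.add_apply, Finsupp.finset_sum_apply,
          Finsupp.smul_apply, smul_eq_mul, mul_sum]
        congr 2
        exact sum_congr rfl fun u _ => by ring
      rw [← hE]
      refine huniq s E (-(y s (v (g * h) (β a))) + y s (v g (β a)) + g • y s (v h (β a)) +
        ∑ u ∈ U, (((p ^ e : ℕ) : ℤ) * c s (v h (β a)) u) • y s (v g (β u))) ?_ w
      have h1 : g • v h (β a) = Finsupp.linearCombination ℤ β (c s (v h (β a))) +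
          ∑ u ∈ U, (((p ^ e : ℕ) : ℤ) * c s (v h (β a)) u) • v g (β u) +
          p ^ s • (g • y s (v h (β a))) := by
        conv_lhs => rw [hc s (v h (β a))]
        rw [smul_add, smul_comm g (p ^ _ : ℕ)]
        congr 1
        have hU : (c s (v h (β a))).support ⊆ U :=
          subset_biUnion_of_mem (fun h => (c s (v h (β a))).support) hh
        rw [Finsupp.linearCombination_apply, Finsupp.sum_of_support_subset _ hU _ (by simp),
          smul_sum, ← sum_add_distrib]
        refine sum_congr rfl fun u _ => ?_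
        rw [smul_comm g, hv', smul_add, mul_comm, mul_smul, natCast_zsmul]
      have h3 : ∀ u, v g (β u) = Finsupp.linearCombination ℤ β (c s (v g (β u))) +
          p ^ s • y s (v g (β u)) := fun u => hc s _
      have h2 := (hc s (v (g * h) (β a))).symm.trans ((hv_mul g h (β a)).trans
        (congrArg₂ (· + ·) (hc s (v g (β a))) h1))
      have h4 : ∑ u ∈ U, (((p ^ e : ℕ) : ℤ) * c s (v h (β a)) u) • v g (β u) =
          Finsupp.linearCombination ℤ β
              (∑ u ∈ U, (((p ^ e : ℕ) : ℤ) * c s (v h (β a)) u) • c s (v g (β u))) +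
            p ^ s • ∑ u ∈ U, (((p ^ e : ℕ) : ℤ) * c s (v h (β a)) u) • y s (v g (β u)) := by
        rw [map_sum, smul_sum, ← sum_add_distrib]
        refine sum_congr rfl fun u _ => ?_
        rw [map_smul, smul_comm (p ^ s) (((p ^ e : ℕ) : ℤ) * c s (v h (β a)) u), ← smul_add,
          ← h3]
      rw [h4] at h2
      simp only [E, map_sub, map_add, smul_add, smul_neg]
      rw [eq_sub_iff_add_eq.mpr h2]
      abel
    have hmod : ∀ u g', (((Z u g' % ((p ^ s : ℕ) : ℤ)).toNat : ℕ) : ℤ) ≡ Z u g'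
        [ZMOD ((p ^ s : ℕ) : ℤ)] := fun u g' => by
      rw [Int.toNat_of_nonneg (Int.emod_nonneg _ (by
        have := hp.out.pos
        positivity))]
      exact Int.mod_modEq _ _
    refine Int.natCast_modEq_iff.mp ?_
    rw [Nat.cast_add, Nat.cast_add, Nat.cast_mul]
    refine ((hmod _ _).trans (Int.modEq_iff_dvd.mpr key).symm).trans ?_
    refine ((Int.ModEq.add ((hmod _ _).symm.add (hmod _ _).symm) ?_))
    refine Int.ModEq.mul_left _ ?_
    rw [List.map_map, Nat.cast_list_sum, List.map_map, Finset.sum_map_toList]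
    refine Int.ModEq.symm ?_
    induction U using Finset.induction_on with
    | empty => simp [Int.ModEq]
    | insert u U hu ih =>
      rw [sum_insert hu, sum_insert hu]
      refine Int.ModEq.add ?_ ih
      simp only [Function.comp_apply, Nat.cast_mul]
      exact (hmod _ _).mul (hmod _ _)
  all_goals
    intro g hg g' hg' hne
    have hle : lev g g' hne ≤ S₀ := by
      refine le_trans ?_ (Finset.le_sup (b := (g, g'))
        (f := fun x : G × G => if h : x.1 = x.2 then 0 else lev x.1 x.2 h) ?_)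
      · rw [dif_neg hne]
      · simp [hg, hg']
    obtain ⟨a, w, hw⟩ := hlev g g' hne s (hle.trans hs)
    refine ⟨(a, w), fun hcon => hw ?_⟩
    have h1 := Int.natCast_modEq_iff.mpr hcon
    have hdiv : ((p ^ S₀ : ℕ) : ℤ) ∣ ((p ^ s : ℕ) : ℤ) :=
      Int.natCast_dvd_natCast.mpr (pow_dvd_pow p hs)
    have h2 : ∀ g' : G, (((Z (a, w) g' % ((p ^ s : ℕ) : ℤ)).toNat : ℕ) : ℤ) ≡ Z (a, w) g'
        [ZMOD ((p ^ S₀ : ℕ) : ℤ)] := fun g' => by
      rw [Int.toNat_of_nonneg (Int.emod_nonneg _ (by
        have := hp.out.pos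
        positivity))]
      exact (Int.mod_modEq _ _).of_dvd hdiv
    have h3 := (h2 g).symm.trans (h1.trans (h2 g'))
    exact (Int.natCast_dvd_natCast.mpr (pow_dvd_pow p hle)).trans (Int.modEq_iff_dvd.mp h3.symm)

variable {K : Type*} [Field K]

/-- **Congruence groups of lattices have domains as group algebras (characteristic `p`).** -/
theorem noZeroDivisors_of_congruence_charP [Fact p.Prime] [CharP K p] (he : 2 < p ^ e)
    (htf : ∀ m : M, p • m = 0 → m = 0)
    (hsep : ∀ m : M, (∀ s : ℕ, ∃ y : M, m = p ^ s • y) → m = 0)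
    (hcong : ∀ (g : G) (m : M), ∃ y : M, g • m - m = p ^ e • y)
    (hfaith : ∀ g : G, (∀ m : M, g • m = m) → g = 1) :
    NoZeroDivisors (MonoidAlgebra K G) := by
  classical
  refine ⟨fun {a b} hab => ?_⟩
  by_contra hne
  rw [not_or] at hne
  have hne' : ∀ z : MonoidAlgebra K G, z ≠ 0 → ∃ g ∈ z.coeff.support, z.coeff g ≠ 0 := fun z hz => by
    obtain ⟨g, hg⟩ := Finsupp.ne_iff.1 (fun h => hz (MonoidAlgebra.coeff_eq_zero.1 h))
    exact ⟨g, Finsupp.mem_support_iff.mpr (by simpa using hg), by simpa using hg⟩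
  obtain ⟨I, s₀, hX⟩ := hasCoordinates_of_congruence (p := p) (e := e) htf hsep hcong hfaith
    a.coeff.support b.coeff.support
  obtain ⟨f, hf⟩ := exists_moment_mul_ne_zero (K := K) (p := p) e he a.coeff.support b.coeff.support
    (fun g => a.coeff g) (fun g => b.coeff g) (hne' a hne.1) (hne' b hne.2)
    ⟨s₀, fun s hs => ⟨_, hX s hs⟩⟩
  refine hf ?_
  let Φ : MonoidAlgebra K G →+ K :=
    { toFun := fun z => z.coeff.sum fun g r => r * f g
      map_zero' := by simp
      map_add' := fun x y => by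
        rw [MonoidAlgebra.coeff_add, Finsupp.sum_add_index'] <;> simp [add_mul] }
  have : Φ (a * b) = ∑ g ∈ a.coeff.support, ∑ h ∈ b.coeff.support,
      a.coeff g * b.coeff h * f (g * h) := by
    conv_lhs => rw [← MonoidAlgebra.sum_coeff_single a, ← MonoidAlgebra.sum_coeff_single b]
    simp only [Finsupp.sum]
    rw [Finset.sum_mul, map_sum]
    refine sum_congr rfl fun g _ => ?_
    rw [Finset.mul_sum, map_sum]
    refine sum_congr rfl fun h _ => ?_
    rw [MonoidAlgebra.single_mul_single]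
    show ((MonoidAlgebra.single (g * h) _).coeff.sum fun g r => r * f g) = _
    rw [MonoidAlgebra.coeff_single, Finsupp.sum_single_index (zero_mul _)]
  rw [← this, hab, map_zero]

end Vale.Agent.P201.Congr
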