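import Vale.Agent.P201.Congr.Series

/-!
# The Magnus embedding of a free group
-/

namespace Vale.Agent.P201.Congr

open List

variable {α : Type*}

open Classical in
/-- The series `X a`. -/
noncomputable def letter (a : α) : Ser α := ⟨fun v => if v = [a] then 1 else 0⟩

open Classical in
/-- The inverse series of `1 + X a`. -/
noncomputable def geom (a : α) : Ser α :=
  ⟨fun v => if ∀ b ∈ v, b = a then (-1) ^ v.length else 0⟩

lemma letter_nil (a : α) : (letter a).co [] = 0 := by simp [letter]

lemma one_add_letter_mul_geom (a : α) : (1 + letter a) * geom a = 1 := by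
  classical
  ext v
  rw [add_mul, one_mul, Ser.co_add]
  cases v with
  | nil => simp [Ser.co_mul_nil, letter, geom]
  | cons b v =>
    rw [Ser.co_mul_cons, letter_nil, zero_mul, zero_add, Ser.co_one_cons]
    by_cases hb : b = a
    · subst hb
      have : (⟨fun t => (letter b).co (b :: t)⟩ : Ser α) = 1 := by
        ext t; cases t <;> simp [letter]
      rw [this, one_mul]
      simp only [geom, List.forall_mem_cons, true_and, List.length_cons, pow_succ]
      split_ifs <;> ring
    · have : (⟨fun t => (letter a).co (b :: t)⟩ : Ser α) = 0 := by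
        ext t; simp [letter, hb]
      rw [this, zero_mul, Ser.co_zero, add_zero]
      simp [geom, hb]

lemma geom_mul_one_add_letter (a : α) : geom a * (1 + letter a) = 1 := by
  classical
  have key : ∀ v : List α, v ≠ [] → (geom a * letter a).co v = -(geom a).co v := by
    intro v
    induction v with
    | nil => intro h; exact absurd rfl h
    | cons b v ih =>
      intro _
      rw [Ser.co_mul_cons]
      by_cases hb : b = a
      · subst hb
        have : (⟨fun t => (geom b).co (b :: t)⟩ : Ser α) = -geom b := by
          ext t
          simp only [geom, Ser.co_neg, List.forall_mem_cons, true_and, List.length_cons, pow_succ]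
          split_ifs <;> ring
        rw [this, neg_mul, Ser.co_neg]
        by_cases hv : v = []
        · subst hv; simp [geom, letter, Ser.co_mul_nil]
        · rw [ih hv]
          have h1 : (letter b).co (b :: v) = 0 := by simp [letter, hv]
          rw [h1]
          simp only [geom, List.forall_mem_cons, true_and, List.length_cons, pow_succ]
          split_ifs <;> ring
      · have : (⟨fun t => (geom a).co (b :: t)⟩ : Ser α) = 0 := by
          ext t; simp [geom, hb]
        rw [this, zero_mul, Ser.co_zero, add_zero]
        simp [geom, letter, hb]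
  ext v
  rw [mul_add, mul_one, Ser.co_add]
  cases v with
  | nil => simp [Ser.co_mul_nil, letter, geom]
  | cons b v => rw [key _ (List.cons_ne_nil _ _), Ser.co_one_cons, add_neg_cancel]

/-- The Magnus homomorphism. -/
noncomputable def magnus : FreeGroup α →* (Ser α)ˣ :=
  FreeGroup.lift fun a =>
    ⟨1 + letter a, geom a, one_add_letter_mul_geom a, geom_mul_one_add_letter a⟩

@[simp] lemma magnus_of (a : α) : (magnus (FreeGroup.of a) : Ser α) = 1 + letter a := by
  simp [magnus]

lemma magnus_inv_of (a : α) : (magnus (FreeGroup.of a)⁻¹ : Ser α) = geom a := by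
  simp [magnus]

lemma magnus_props (g : FreeGroup α) :
    ((magnus g : Ser α).co [] = 1) ∧ Ser.Integral (magnus g : Ser α) := by
  classical
  induction g using FreeGroup.induction_on with
  | C1 => exact ⟨by simp, by simpa using Ser.Integral.one⟩
  | of a =>
    refine ⟨by simp [letter], fun v => ⟨(if v = [] then 1 else 0) + if v = [a] then 1 else 0, ?_⟩⟩
    cases v <;> simp [letter] <;> split_ifs <;> simp
  | inv_of a _ =>
    show (magnus (FreeGroup.of a)⁻¹ : Ser α).co [] = 1 ∧ _
    rw [magnus_inv_of]
    refine ⟨by simp [geom], fun v => ⟨if ∀ b ∈ v, b = a then (-1) ^ v.length else 0, ?_⟩⟩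
    simp only [geom]
    split_ifs <;> simp
  | mul x y hx hy =>
    rw [map_mul, Units.val_mul]
    exact ⟨by rw [Ser.co_mul_nil, hx.1, hy.1, one_mul], hx.2.mul hy.2⟩

/-- The coefficient of one letter is additive. -/
lemma magnus_singleton_mul (x y : FreeGroup α) (b : α) :
    (magnus (x * y) : Ser α).co [b] = (magnus x : Ser α).co [b] + (magnus y : Ser α).co [b] := by
  rw [map_mul, Units.val_mul, Ser.co_mul_singleton, (magnus_props x).1, (magnus_props y).1]
  ring

/-- The coefficient of a letter, through the abelianisation. -/
noncomputable def degHom (b : α) : Abelianization (FreeGroup α) →* Multiplicative ℚ :=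
  Abelianization.lift
    { toFun := fun g => Multiplicative.ofAdd ((magnus g : Ser α).co [b])
      map_one' := by simp
      map_mul' := fun x y => by rw [magnus_singleton_mul]; rfl }

lemma degHom_of (b : α) (g : FreeGroup α) :
    (degHom b (Abelianization.of g)).toAdd = (magnus g : Ser α).co [b] := by
  simp [degHom]

/-- A word written in runs of powers of one letter. -/
def runProd (l : List (α × ℤ)) : FreeGroup α :=
  (l.map fun x => FreeGroup.of x.1 ^ x.2).prod

/-- Consecutive runs use different letters and no run is empty. -/
def IsRuns (l : List (α × ℤ)) : Prop :=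
  l.IsChain (fun x y => x.1 ≠ y.1) ∧ ∀ x ∈ l, x.2 ≠ 0

lemma exists_runs_mul (a : α) (n : ℤ) (l : List (α × ℤ)) (hl : IsRuns l) :
    ∃ l', IsRuns l' ∧ runProd l' = FreeGroup.of a ^ n * runProd l := by
  classical
  by_cases hn : n = 0
  · exact ⟨l, hl, by simp [hn]⟩
  cases l with
  | nil => exact ⟨[(a, n)], ⟨by simp, by simp [hn]⟩, by simp [runProd]⟩
  | cons x t =>
    obtain ⟨b, m⟩ := x
    by_cases hb : a = b
    · subst hb
      have ht : IsRuns t := ⟨hl.1.tail, fun x hx => hl.2 x (by simp [hx])⟩
      by_cases hnm : n + m = 0
      · refine ⟨t, ht, ?_⟩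
        simp [runProd, ← mul_assoc, ← zpow_add, hnm]
      · refine ⟨(a, n + m) :: t, ⟨?_, ?_⟩, by simp [runProd, ← mul_assoc, ← zpow_add]⟩
        · cases t with
          | nil => simp
          | cons y t => exact List.isChain_cons_cons.mpr ⟨(List.isChain_cons_cons.mp hl.1).1, ht.1⟩
        · intro x hx
          rcases List.mem_cons.mp hx with rfl | hx
          · exact hnm
          · exact ht.2 x hx
    · refine ⟨(a, n) :: (b, m) :: t, ⟨List.isChain_cons_cons.mpr ⟨hb, hl.1⟩, ?_⟩, by simp [runProd]⟩
      intro x hx
      rcases List.mem_cons.mp hx with rfl | hx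
      · exact hn
      · exact hl.2 x hx

lemma exists_runs (g : FreeGroup α) : ∀ l, IsRuns l →
    ∃ l', IsRuns l' ∧ runProd l' = g * runProd l := by
  induction g using FreeGroup.induction_on with
  | C1 => intro l hl; exact ⟨l, hl, (one_mul _).symm⟩
  | of a => intro l hl; simpa using exists_runs_mul a 1 l hl
  | inv_of a _ =>
    intro l hl
    obtain ⟨l', h1, h2⟩ := exists_runs_mul a (-1) l hl
    exact ⟨l', h1, by simpa using h2⟩
  | mul x y hx hy =>
    intro l hl
    obtain ⟨l', h1, h2⟩ := hy l hl
    obtain ⟨l'', h3, h4⟩ := hx l' h1
    exact ⟨l'', h3, by rw [h4, h2, mul_assoc]⟩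

lemma magnus_zpow (a : α) (n : ℤ) :
    Ser.OnlyLetter a (magnus (FreeGroup.of a ^ n) : Ser α) ∧
      (magnus (FreeGroup.of a ^ n) : Ser α).co [a] = n := by
  classical
  have hg : ∀ k : ℕ, Ser.OnlyLetter a (magnus (FreeGroup.of a ^ k) : Ser α) ∧
      Ser.OnlyLetter a (magnus ((FreeGroup.of a)⁻¹ ^ k) : Ser α) := by
    intro k
    induction k with
    | zero =>
      constructor <;>
      · intro v hv
        obtain ⟨b, hb, -⟩ := hv
        cases v with
        | nil => simp at hb
        | cons c v => simp
    | succ k ih =>
      constructor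
      · rw [pow_succ, map_mul, Units.val_mul, magnus_of]
        refine ih.1.mul fun v hv => ?_
        obtain ⟨b, hb, hne⟩ := hv
        have h1 : v ≠ [a] := fun h => hne (by simpa [h] using hb)
        cases v with
        | nil => simp at hb
        | cons c v => simp [letter, h1]
      · rw [pow_succ, map_mul, Units.val_mul, magnus_inv_of]
        refine ih.2.mul fun v hv => ?_
        obtain ⟨b, hb, hne⟩ := hv
        simp only [geom]
        rw [if_neg fun h => hne (h b hb)]
  refine ⟨?_, ?_⟩
  · rcases Int.eq_nat_or_neg n with ⟨k, rfl | rfl⟩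
    · simpa using (hg k).1
    · simpa [zpow_neg, ← inv_pow] using (hg k).2
  · rw [← degHom_of, map_zpow, map_zpow, toAdd_zpow, degHom_of, magnus_of]
    simp [letter]

/-- The coefficient of the run letters is the product of the exponents. -/
lemma magnus_runs : ∀ l, IsRuns l →
    (magnus (runProd l) : Ser α).co (l.map Prod.fst) = ((l.map Prod.snd).prod : ℤ) ∧
      ∀ v : List α, v.IsChain (· ≠ ·) → l.length < v.length →
        (magnus (runProd l) : Ser α).co v = 0 := by
  intro l
  induction l with
  | nil =>
    intro _
    refine ⟨by simp [runProd], fun v _ hv => ?_⟩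
    cases v with
    | nil => simp at hv
    | cons c v => simp [runProd]
  | cons x t ih =>
    obtain ⟨a, n⟩ := x
    intro hl
    obtain ⟨h1, h2⟩ := ih ⟨hl.1.tail, fun x hx => hl.2 x (by simp [hx])⟩
    obtain ⟨hA, hAa⟩ := magnus_zpow a n
    set f := (magnus (FreeGroup.of a ^ n) : Ser α)
    have hf : (magnus (runProd ((a, n) :: t)) : Ser α) = f * (magnus (runProd t) : Ser α) := by
      simp [runProd, f]
    set g := (magnus (runProd t) : Ser α)
    have hnil : f.co [] = 1 := (magnus_props _).1
    -- the value at `a :: v` for `v` not starting with `a`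
    have hcons : ∀ v : List α, v.head? ≠ some a →
        (f * g).co (a :: v) = g.co (a :: v) + n * g.co v := by
      intro v hv
      rw [Ser.co_mul_cons, hnil, one_mul]
      congr 1
      have hA' : Ser.OnlyLetter a (⟨fun u => f.co (a :: u)⟩ : Ser α) := by
        rintro u ⟨b, hb, hne⟩
        exact hA _ ⟨b, by simp [hb], hne⟩
      rw [Ser.mul_other_letter hA' g v hv]
      rw [show (⟨fun u => f.co (a :: u)⟩ : Ser α).co [] = f.co [a] from rfl, hAa]
    rw [hf]
    refine ⟨?_, fun v hv hlen => ?_⟩
    · have hhead : (t.map Prod.fst).head? ≠ some a := by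
        cases t with
        | nil => simp
        | cons y t =>
          have := (List.isChain_cons_cons.mp hl.1).1
          simpa using fun h => this h.symm
      rw [List.map_cons, hcons _ hhead, h1, h2 _ ?_ (by simp)]
      · simp
      · cases t with
        | nil => simp
        | cons y t => exact (List.isChain_map Prod.fst).mpr hl.1
    · cases v with
      | nil => simp at hlen
      | cons c v =>
        simp only [List.length_cons] at hlen
        by_cases hc : c = a
        · subst hc
          have hhead : v.head? ≠ some c := by
            cases v with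
            | nil => simp
            | cons d v =>
              have := (List.isChain_cons_cons.mp hv).1
              simpa using fun h => this h.symm
          rw [hcons _ hhead, h2 _ hv (by simp; omega), h2 v hv.tail (by omega)]
          simp
        · rw [Ser.mul_other_letter hA g _ (by simpa using hc), h2 _ hv (by simp; omega), mul_zero]

/-- **Magnus.** The homomorphism is injective. -/
theorem magnus_injective : Function.Injective (magnus : FreeGroup α →* (Ser α)ˣ) := by
  refine (injective_iff_map_eq_one _).mpr fun g hg => ?_
  obtain ⟨l, hl, hgl⟩ := exists_runs g [] ⟨by simp, by simp⟩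
  rw [show runProd ([] : List (α × ℤ)) = 1 from rfl, mul_one] at hgl
  cases l with
  | nil => rw [← hgl]; simp [runProd]
  | cons x t =>
    exfalso
    have h := (magnus_runs _ hl).1
    rw [hgl, hg, Units.val_one, List.map_cons, Ser.co_one_cons] at h
    have h' : ((x :: t).map Prod.snd).prod ≠ (0 : ℤ) := List.prod_ne_zero (by
      intro h0
      obtain ⟨y, hy, hy0⟩ := List.mem_map.mp h0
      exact hl.2 y hy hy0)
    exact h' (by exact_mod_cast h.symm)

end Vale.Agent.P201.Congr
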