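import Vale.Agent.P201.Congr.Degree

/-!
# Lowest moments multiply
-/

namespace Vale.Agent.P201.Congr

open Finset

variable {p : ℕ} [Fact p.Prime] {K : Type*} [Field K] [CharP K p]

section Basis

variable {Ω ι : Type*} [DecidableEq ι] {X : ι → Ω → ℕ}

/-- The product of binomials with exponents `k` on the coordinates in `U`. -/
def bmon (X : ι → Ω → ℕ) (U : Finset ι) (k : ι →₀ ℕ) : Ω → K :=
  fun ω => ∏ u ∈ U, ((X u ω).choose (k u) : K)

omit [Fact p.Prime] [CharP K p] in
lemma mon_mem_span_bmon (U : Finset ι) : ∀ l : List (ι × ℕ), (∀ a ∈ l, a.1 ∈ U) →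
    (mon X l : Ω → K) ∈ Submodule.span K
      {f | ∃ k : ι →₀ ℕ, k.support ⊆ U ∧ U.sum k ≤ deg l ∧ f = bmon X U k} := by
  intro l
  induction l with
  | nil =>
    intro _
    refine Submodule.subset_span ⟨0, by simp, by simp [deg], ?_⟩
    funext ω; simp [mon, bmon]
  | cons a l ih =>
    intro h
    obtain ⟨u, n⟩ := a
    have hu : u ∈ U := h (u, n) (by simp)
    have hl := ih fun b hb => h b (by simp [hb])
    have e : (mon X ((u, n) :: l) : Ω → K) = (fun ω => ((X u ω).choose n : K)) * mon X l := by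
      funext ω; simp [mon]
    rw [e]
    have hle : Submodule.span K {f | ∃ k : ι →₀ ℕ, k.support ⊆ U ∧ U.sum k ≤ deg l ∧
          f = bmon X U k} ≤ (Submodule.span K {f | ∃ k : ι →₀ ℕ, k.support ⊆ U ∧
          U.sum k ≤ deg ((u, n) :: l) ∧ f = bmon X U k}).comap
        (LinearMap.mulLeft K fun ω => ((X u ω).choose n : K)) := by
      refine Submodule.span_le.mpr ?_
      rintro _ ⟨k, hkU, hkd, rfl⟩
      obtain ⟨c, hc⟩ := exists_choose_mul (n + k u) n (k u) rfl
      have e2 : (fun ω => ((X u ω).choose n : K)) * bmon X U k =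
          ∑ j ∈ range (n + k u + 1), (c j : K) • bmon X U (k.update u j) := by
        funext ω
        have h1 : ∀ j, bmon X U (k.update u j) ω =
            ((X u ω).choose j : K) * ∏ v ∈ U.erase u, ((X v ω).choose (k v) : K) := by
          intro j
          rw [bmon, ← mul_prod_erase _ _ hu]
          congr 1
          · simp
          · exact prod_congr rfl fun v hv => by simp [(mem_erase.mp hv).1]
        have h2 : bmon X U k ω =
            ((X u ω).choose (k u) : K) * ∏ v ∈ U.erase u, ((X v ω).choose (k v) : K) := by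
          rw [bmon, ← mul_prod_erase _ _ hu]
        simp only [Pi.mul_apply, Finset.sum_apply, Pi.smul_apply, smul_eq_mul, h1, h2,
          ← mul_assoc, ← sum_mul]
        congr 1
        rw [← Nat.cast_mul, hc, Nat.cast_sum]
        push_cast
        rfl
      rw [SetLike.mem_coe, Submodule.mem_comap, LinearMap.mulLeft_apply]
      rw [e2]
      refine Submodule.sum_mem _ fun j hj => Submodule.smul_mem _ _
        (Submodule.subset_span ⟨k.update u j, ?_, ?_, rfl⟩)
      · intro v hv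
        by_cases hvu : v = u
        · exact hvu ▸ hu
        · refine hkU (Finsupp.mem_support_iff.mpr ?_)
          simpa [hvu] using Finsupp.mem_support_iff.mp hv
      · have hj' := mem_range.mp hj
        have e3 : U.sum (k.update u j) = j + (U.erase u).sum k := by
          rw [← add_sum_erase _ _ hu]
          congr 1
          · simp
          · exact sum_congr rfl fun v hv => by simp [(mem_erase.mp hv).1]
        have e4 : U.sum k = k u + (U.erase u).sum k := (add_sum_erase _ _ hu).symm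
        simp only [deg, List.map_cons, List.sum_cons] at hkd ⊢
        omega
    exact hle hl

omit [Fact p.Prime] [CharP K p] in
lemma bmon_mem_Dsub (U : Finset ι) (k : ι →₀ ℕ) : (bmon X U k : Ω → K) ∈ Dsub K X (U.sum k) := by
  induction U using Finset.induction_on with
  | empty => rw [sum_empty, show (bmon X ∅ k : Ω → K) = 1 by funext ω; simp [bmon]]; exact one_mem_Dsub _
  | insert u U hu ih =>
    rw [sum_insert hu, show (bmon X (insert u U) k : Ω → K) =
      (fun ω => ((X u ω).choose (k u) : K)) * bmon X U k by funext ω; simp [bmon, prod_insert hu]]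
    exact mul_mem_Dsub (choose_mem_Dsub u le_rfl) ih

omit [DecidableEq ι] [Fact p.Prime] [CharP K p] in
/-- Replacing factors by congruent ones of the same degree. -/
lemma prod_sub_prod_mem {κ : Type*} (U : Finset κ) (f g : κ → Ω → K) (n : κ → ℕ)
    (hf : ∀ u ∈ U, f u ∈ Dsub K X (n u)) (hg : ∀ u ∈ U, g u ∈ Dsub K X (n u))
    (hfg : ∀ u ∈ U, f u - g u ∈ Dsub K X (n u - 1)) (h0 : ∀ u ∈ U, n u = 0 → f u = g u) :
    (∏ u ∈ U, f u) ∈ Dsub K X (∑ u ∈ U, n u) ∧ (∏ u ∈ U, g u) ∈ Dsub K X (∑ u ∈ U, n u) ∧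
      (∏ u ∈ U, f u) - (∏ u ∈ U, g u) ∈ Dsub K X ((∑ u ∈ U, n u) - 1) ∧
      ((∑ u ∈ U, n u) = 0 → (∏ u ∈ U, f u) = ∏ u ∈ U, g u) := by
  classical
  induction U using Finset.induction_on with
  | empty => simp [one_mem_Dsub]
  | insert u U hu ih =>
    simp only [mem_insert, forall_eq_or_imp] at hf hg hfg h0
    obtain ⟨i1, i2, i3, i4⟩ := ih hf.2 hg.2 hfg.2 h0.2
    rw [prod_insert hu, prod_insert hu, sum_insert hu]
    refine ⟨mul_mem_Dsub hf.1 i1, mul_mem_Dsub hg.1 i2, ?_, fun h => ?_⟩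
    · rw [show f u * ∏ x ∈ U, f x - g u * ∏ x ∈ U, g x =
        (f u - g u) * ∏ x ∈ U, f x + g u * (∏ x ∈ U, f x - ∏ x ∈ U, g x) by ring]
      refine add_mem ?_ ?_
      · rcases Nat.eq_zero_or_pos (n u) with h | h
        · rw [h0.1 h]; simp
        · exact Dsub_mono (by omega) (mul_mem_Dsub hfg.1 i1)
      · rcases Nat.eq_zero_or_pos (∑ u ∈ U, n u) with h | h
        · rw [i4 h]; simp
        · exact Dsub_mono (by omega) (mul_mem_Dsub hg.1 i3)
    · rw [h0.1 (by omega), i4 (by omega)]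

end Basis

universe w

variable {G : Type*} [Mul G]

/-- The bilinear moment of a function on a finite set of pairs. -/
def biMoment (P Q : Finset G) (a b : G → K) : ((↥(P ×ˢ Q)) → K) →ₗ[K] K where
  toFun F := ∑ ω : ↥(P ×ˢ Q), a ω.1.1 * b ω.1.2 * F ω
  map_add' F F' := by simp [mul_add, sum_add_distrib]
  map_smul' c F := by simp [mul_sum, mul_left_comm]

omit [Fact p.Prime] [CharP K p] in
lemma biMoment_tensor [DecidableEq G] (P Q : Finset G) (a b : G → K) (f f' : G → K) :
    biMoment P Q a b (fun ω => f ω.1.1 * f' ω.1.2) =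
      (∑ g ∈ P, a g * f g) * ∑ h ∈ Q, b h * f' h := by
  show ∑ ω : ↥(P ×ˢ Q), a ω.1.1 * b ω.1.2 * (f ω.1.1 * f' ω.1.2) = _
  rw [Finset.sum_coe_sort (P ×ˢ Q) (fun x : G × G => a x.1 * b x.2 * (f x.1 * f' x.2)),
    sum_product, sum_mul_sum]
  exact sum_congr rfl fun g _ => sum_congr rfl fun h _ => by ring

/-- Coordinates of level `s` for the pairs in `P × Q`, separating modulo `p ^ s₀`. -/
def HasCoordinates.{v} (p e : ℕ) (P Q : Finset G) (s₀ s : ℕ) : Prop :=
  ∃ (ι : Type v) (X : ι → G → ℕ),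
    (∀ u, ∃ W : List (ι × ι), ∀ g ∈ P, ∀ h ∈ Q, X u (g * h) ≡
      X u g + X u h + p ^ e * (W.map fun t => X t.1 g * X t.2 h).sum [MOD p ^ s]) ∧
    (∀ g ∈ P, ∀ g' ∈ P, g ≠ g' → ∃ u, ¬ X u g ≡ X u g' [MOD p ^ s₀]) ∧
    ∀ g ∈ Q, ∀ g' ∈ Q, g ≠ g' → ∃ u, ¬ X u g ≡ X u g' [MOD p ^ s₀]

/-- Some function of small degree has nonzero moment. -/
lemma exists_moment_ne_zero {ι : Type*} (X : ι → G → ℕ) (P : Finset G) (a : G → K) {g₀ : G}
    (hg₀ : g₀ ∈ P) (ha : a g₀ ≠ 0) {s₀ : ℕ}
    (hsep : ∀ g ∈ P, ∀ g' ∈ P, g ≠ g' → ∃ u, ¬ X u g ≡ X u g' [MOD p ^ s₀]) :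
    ∃ f ∈ Dsub K X (#P * p ^ s₀), ∑ g ∈ P, a g * f g ≠ 0 := by
  classical
  have hpos := (Fact.out : p.Prime).pos
  have h : ∀ g' ∈ P.erase g₀, ∃ φ ∈ Dsub K X (p ^ s₀), φ g₀ ≠ 0 ∧ φ g' = (0 : K) := by
    intro g' hg'
    obtain ⟨u, hu⟩ := hsep g₀ hg₀ g' (mem_erase.mp hg').2 (Ne.symm (mem_erase.mp hg').1)
    obtain ⟨e, he, hne⟩ := exists_choose_pow_ne (K := K) hu
    refine ⟨(fun g => ((X u g).choose (p ^ e) : K)) - ((X u g').choose (p ^ e) : K) • 1, ?_, ?_, ?_⟩
    · exact sub_mem (choose_mem_Dsub u (Nat.pow_le_pow_right hpos he.le))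
        (Submodule.smul_mem _ _ (one_mem_Dsub _))
    · simpa [sub_eq_zero] using hne
    · simp
  choose φ hφ hφ0 hφ1 using h
  refine ⟨∏ g' ∈ (P.erase g₀).attach, φ g'.1 g'.2, ?_, ?_⟩
  · have : ∀ T : Finset ↥(P.erase g₀), (∏ g' ∈ T, φ g'.1 g'.2) ∈ Dsub K X (#T * p ^ s₀) := by
      intro T
      induction T using Finset.induction_on with
      | empty => simpa using one_mem_Dsub (X := X) (K := K) 0
      | insert t T ht ih =>
        rw [prod_insert ht, card_insert_of_notMem ht, add_mul, one_mul, add_comm]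
        exact mul_mem_Dsub (hφ _ _) ih
    refine Dsub_mono ?_ (this _)
    rw [card_attach]
    exact Nat.mul_le_mul_right _ (card_le_card (erase_subset _ _))
  · rw [sum_eq_single g₀]
    · refine mul_ne_zero ha ?_
      rw [Finset.prod_apply]
      exact prod_ne_zero_iff.mpr fun g' _ => hφ0 _ _
    · intro g hg hne
      rw [Finset.prod_apply, prod_eq_zero (mem_attach _ ⟨g, mem_erase.mpr ⟨hne, hg⟩⟩) (hφ1 _ _),
        mul_zero]
    · exact fun h => absurd hg₀ h

omit [Fact p.Prime] [CharP K p] in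
/-- A function of least degree with nonzero moment can be taken a basic one. -/
lemma exists_least_moment {ι : Type*} [DecidableEq ι] (X : ι → G → ℕ) (P : Finset G)
    (a : G → K) {N : ℕ} (h : ∃ f ∈ Dsub K X N, ∑ g ∈ P, a g * f g ≠ 0) :
    ∃ (d : ℕ) (U : Finset ι) (k : ι →₀ ℕ), d ≤ N ∧ k.support ⊆ U ∧ U.sum k = d ∧
      (∑ g ∈ P, a g * bmon X U k g ≠ 0) ∧
      ∀ n < d, ∀ f ∈ Dsub K X n, ∑ g ∈ P, a g * f g = 0 := by
  classical
  let μ : (G → K) →ₗ[K] K :=
    { toFun := fun f => ∑ g ∈ P, a g * f g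
      map_add' := fun f f' => by simp [mul_add, sum_add_distrib]
      map_smul' := fun c f => by simp [mul_sum, mul_left_comm] }
  have hex : ∃ n, ¬ Dsub K X n ≤ LinearMap.ker μ := by
    obtain ⟨f, hf, hne⟩ := h
    exact ⟨N, fun hle => hne (hle hf)⟩
  set d := Nat.find hex
  have hmin : ∀ n < d, ∀ f ∈ Dsub K X n, ∑ g ∈ P, a g * f g = 0 := fun n hn f hf =>
    (not_not.mp (Nat.find_min hex hn)) hf
  have hdN : d ≤ N := Nat.find_le (by
    obtain ⟨f, hf, hne⟩ := h
    exact fun hle => hne (hle hf))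
  obtain ⟨l, hl, hlne⟩ : ∃ l : List (ι × ℕ), deg l ≤ d ∧ μ (mon X l) ≠ 0 := by
    by_contra hall
    push Not at hall
    refine Nat.find_spec hex (Submodule.span_le.mpr ?_)
    rintro _ ⟨l, hl, rfl⟩
    exact hall l hl
  set U := (l.map Prod.fst).toFinset
  obtain ⟨k, hkU, hkd, hkne⟩ : ∃ k : ι →₀ ℕ, k.support ⊆ U ∧ U.sum k ≤ deg l ∧
      μ (bmon X U k) ≠ 0 := by
    by_contra hall
    push Not at hall
    have hmem := mon_mem_span_bmon (K := K) (X := X) U l fun b hb =>
      List.mem_toFinset.mpr (List.mem_map_of_mem hb)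
    refine hlne ((Submodule.span_le.mpr ?_ : _ ≤ LinearMap.ker μ) hmem)
    rintro _ ⟨k, h1, h2, rfl⟩
    exact hall k h1 h2
  refine ⟨d, U, k, hdN, hkU, le_antisymm (hkd.trans hl) ?_, hkne, hmin⟩
  by_contra hlt
  exact hkne (hmin (U.sum k) (by omega) _ (bmon_mem_Dsub U k))

/-- **The core.** Lowest moments multiply, so no product of nonzero elements vanishes. -/
theorem exists_moment_mul_ne_zero.{v} [DecidableEq G] (e : ℕ) (he : 2 < p ^ e) (P Q : Finset G)
    (a b : G → K) (ha : ∃ g ∈ P, a g ≠ 0) (hb : ∃ g ∈ Q, b g ≠ 0)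
    (hcoord : ∃ s₀, ∀ s, s₀ ≤ s → HasCoordinates.{_, v} p e P Q s₀ s) :
    ∃ f : G → K, ∑ g ∈ P, ∑ h ∈ Q, a g * b h * f (g * h) ≠ 0 := by
  classical
  obtain ⟨s₀, hs⟩ := hcoord
  set D₀ := (#P + #Q) * p ^ s₀ with hD₀
  set s := s₀ + D₀ + 1 with hs_def
  have hps : D₀ < p ^ s := lt_of_lt_of_le (show D₀ < s by omega)
    (Nat.lt_pow_self (Fact.out : p.Prime).one_lt).le
  obtain ⟨ι, X, hlaw, hsepP, hsepQ⟩ := hs s (by omega)
  obtain ⟨g₀, hg₀, hag₀⟩ := ha
  obtain ⟨h₀, hh₀, hbh₀⟩ := hb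
  obtain ⟨d, Ua, ka, hd, hkaU, hka, hane, hamin⟩ :=
    exists_least_moment X P a (exists_moment_ne_zero X P a hg₀ hag₀ hsepP)
  obtain ⟨d', Ub, kb, hd', hkbU, hkb, hbne, hbmin⟩ :=
    exists_least_moment X Q b (exists_moment_ne_zero X Q b hh₀ hbh₀ hsepQ)
  set U := Ua ∪ Ub
  have hext : ∀ (V : Finset ι) (k : ι →₀ ℕ), V ⊆ U → k.support ⊆ V →
      (bmon X U k : G → K) = bmon X V k := by
    intro V k hV hk
    funext g
    exact (prod_subset hV fun u _ hu => by
      rw [Finsupp.notMem_support_iff.mp (fun h => hu (hk h)), Nat.choose_zero_right, Nat.cast_one]).symm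
  -- leading forms
  let form : (G → K) → Finset G → ℕ → MvPolynomial ι K := fun c R n =>
    ∑ k ∈ U.finsuppAntidiag n, MvPolynomial.monomial k (∑ g ∈ R, c g * bmon X U k g)
  have hcoeff : ∀ c R n (k : ι →₀ ℕ), (form c R n).coeff k =
      if k ∈ U.finsuppAntidiag n then ∑ g ∈ R, c g * bmon X U k g else 0 := by
    intro c R n k
    simp [form, MvPolynomial.coeff_sum, MvPolynomial.coeff_monomial, Finset.sum_ite_eq']
  have hne : form a P d * form b Q d' ≠ 0 := by
    refine mul_ne_zero (fun h => ?_) fun h => ?_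
    · have h1 := hcoeff a P d ka
      rw [h, MvPolynomial.coeff_zero, if_pos (mem_finsuppAntidiag.mpr
        ⟨(sum_subset subset_union_left fun u _ hu =>
          Finsupp.notMem_support_iff.mp fun h => hu (hkaU h)).symm.trans hka,
          hkaU.trans subset_union_left⟩), hext Ua ka subset_union_left hkaU] at h1
      exact hane h1.symm
    · have h1 := hcoeff b Q d' kb
      rw [h, MvPolynomial.coeff_zero, if_pos (mem_finsuppAntidiag.mpr
        ⟨(sum_subset subset_union_right fun u _ hu =>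
          Finsupp.notMem_support_iff.mp fun h => hu (hkbU h)).symm.trans hkb,
          hkbU.trans subset_union_right⟩), hext Ub kb subset_union_right hkbU] at h1
      exact hbne h1.symm
  obtain ⟨k, hk⟩ := MvPolynomial.ne_zero_iff.mp hne
  rw [MvPolynomial.coeff_mul] at hk
  obtain ⟨⟨i₀, j₀⟩, hij₀, hterm⟩ := exists_ne_zero_of_sum_ne_zero hk
  simp only [hcoeff] at hterm
  have hi₀ : i₀ ∈ U.finsuppAntidiag d := by
    by_contra h; rw [if_neg h, zero_mul] at hterm; exact hterm rfl
  have hj₀ : j₀ ∈ U.finsuppAntidiag d' := by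
    by_contra h; rw [if_neg h, mul_zero] at hterm; exact hterm rfl
  obtain ⟨hi₀s, hi₀U⟩ := mem_finsuppAntidiag.mp hi₀
  obtain ⟨hj₀s, hj₀U⟩ := mem_finsuppAntidiag.mp hj₀
  have hkij : i₀ + j₀ = k := HasAntidiagonal.mem_antidiagonal.mp hij₀
  have hkU : k.support ⊆ U := hkij ▸ Finsupp.support_add.trans (union_subset hi₀U hj₀U)
  have hksum : U.sum k = d + d' := by
    rw [← hkij, ← hi₀s, ← hj₀s, ← sum_add_distrib]; rfl
  refine ⟨bmon X U k, ?_⟩
  -- coordinates on pairs
  let Y : ι ⊕ ι → ↥(P ×ˢ Q) → ℕ := Sum.elim (fun u ω => X u ω.1.1) fun u ω => X u ω.1.2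
  have hP : ∀ ω : ↥(P ×ˢ Q), ω.1.1 ∈ P := fun ω => (mem_product.mp ω.2).1
  have hQ : ∀ ω : ↥(P ×ˢ Q), ω.1.2 ∈ Q := fun ω => (mem_product.mp ω.2).2
  have hkill : ∀ F ∈ Dsub K Y (d + d' - 1), 0 < d + d' → biMoment P Q a b F = 0 := by
    intro F hF hpos
    refine (Submodule.span_le.mpr ?_ : _ ≤ LinearMap.ker (biMoment P Q a b)) hF
    rintro _ ⟨l, hl, rfl⟩
    let lL : List (ι × ℕ) := l.filterMap fun x => x.1.elim (fun u => some (u, x.2)) fun _ => none
    let lR : List (ι × ℕ) := l.filterMap fun x => x.1.elim (fun _ => none) fun u => some (u, x.2)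
    have hsplit : (mon Y l : ↥(P ×ˢ Q) → K) = (fun ω => mon X lL ω.1.1 * mon X lR ω.1.2) ∧
        deg l = deg lL + deg lR := by
      clear hl
      induction l with
      | nil => exact ⟨by funext ω; simp [mon, lL, lR], by simp [deg, lL, lR]⟩
      | cons x l ih =>
        obtain ⟨ih1, ih2⟩ := ih
        obtain ⟨x | x, n⟩ := x
        · refine ⟨?_, by simp [deg, lL, lR, List.filterMap_cons] at ih2 ⊢; omega⟩
          funext ω
          have := congrFun ih1 ω
          simp [mon, lL, lR, Y, List.filterMap_cons] at this ⊢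
          rw [this]; ring
        · refine ⟨?_, by simp [deg, lL, lR, List.filterMap_cons] at ih2 ⊢; omega⟩
          funext ω
          have := congrFun ih1 ω
          simp [mon, lL, lR, Y, List.filterMap_cons] at this ⊢
          rw [this]; ring
    rw [SetLike.mem_coe, LinearMap.mem_ker, hsplit.1, biMoment_tensor]
    by_cases hlt : deg lL < d
    · rw [hamin _ hlt _ (mon_mem le_rfl), zero_mul]
    · rw [hbmin (deg lR) (by omega) _ (mon_mem le_rfl), mul_zero]
  -- the law
  choose W hW using hlaw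
  let main : ι → ↥(P ×ˢ Q) → K := fun u ω => ∑ r ∈ range (k u + 1),
    ((X u ω.1.1).choose r : K) * ((X u ω.1.2).choose (k u - r) : K)
  let full : ι → ↥(P ×ˢ Q) → K := fun u ω => ((X u (ω.1.1 * ω.1.2)).choose (k u) : K)
  have hk_lt : ∀ u ∈ U, k u < p ^ s := fun u hu => by
    have : k u ≤ U.sum k := single_le_sum (fun _ _ => Nat.zero_le _) hu
    have : d + d' ≤ D₀ := by rw [hD₀, add_mul]; omega
    omega
  have hmain : ∀ u, main u ∈ Dsub K Y (k u) := fun u => by
    have : main u = ∑ r ∈ range (k u + 1), (fun ω => ((Y (.inl u) ω).choose r : K)) *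
        fun ω => ((Y (.inr u) ω).choose (k u - r) : K) := by funext ω; simp [main, Y]
    rw [this]
    refine Submodule.sum_mem _ fun r hr => Dsub_mono ?_
      (mul_mem_Dsub (choose_mem_Dsub _ le_rfl) (choose_mem_Dsub _ le_rfl))
    have := mem_range.mp hr
    omega
  have hdiff : ∀ u ∈ U, full u - main u ∈ Dsub K Y (k u - 1) ∧ (k u = 0 → full u = main u) := by
    intro u hu
    refine ⟨?_, fun h => by funext ω; simp [full, main, h]⟩
    have hpt : full u - main u = ∑ ij ∈ (antidiagonal (k u)).filter fun ij => ij.2 ≠ 0,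
        (∑ cd ∈ antidiagonal ij.1, (fun ω : ↥(P ×ˢ Q) => ((Y (.inl u) ω).choose cd.1 : K)) *
          fun ω : ↥(P ×ˢ Q) => ((Y (.inr u) ω).choose cd.2 : K)) *
        fun ω : ↥(P ×ˢ Q) => ((p ^ e * (((W u).map fun t => (Sum.inl t.1, Sum.inr t.2)).map
          fun t => Y t.1 ω * Y t.2 ω).sum).choose ij.2 : K) := by
      funext ω
      show ((X u (ω.1.1 * ω.1.2)).choose (k u) : K) - _ = _
      rw [cast_choose_congr (p := p) (hW u _ (hP ω) _ (hQ ω)) (hk_lt u hu), Nat.add_choose_eq,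
        Nat.cast_sum, ← sum_filter_add_sum_filter_not _ (fun ij : ℕ × ℕ => ij.2 ≠ 0)]
      have h0 : (antidiagonal (k u)).filter (fun ij => ¬ ij.2 ≠ 0) = {(k u, 0)} := by
        ext ⟨i, j⟩
        simp only [ne_eq, not_not, mem_filter, HasAntidiagonal.mem_antidiagonal, mem_singleton, Prod.mk.injEq]
        omega
      rw [h0, sum_singleton, Nat.choose_zero_right, mul_one]
      have hm : (((X u ω.1.1 + X u ω.1.2).choose (k u) : ℕ) : K) = main u ω := by
        rw [Nat.add_choose_eq, Finset.Nat.sum_antidiagonal_eq_sum_range_succ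
          (fun i j => (X u ω.1.1).choose i * (X u ω.1.2).choose j)]
        simp [main]
      rw [hm, add_sub_cancel_right]
      simp only [Finset.sum_apply, Pi.mul_apply, List.map_map, Function.comp_def, Y,
        Sum.elim_inl, Sum.elim_inr, Nat.add_choose_eq, Nat.cast_sum, Nat.cast_mul]
    rw [hpt]
    refine Submodule.sum_mem _ fun ij hij => ?_
    obtain ⟨hij, hne'⟩ := mem_filter.mp hij
    have hij' := HasAntidiagonal.mem_antidiagonal.mp hij
    refine Dsub_mono (show ij.1 + (ij.2 - 1) ≤ k u - 1 by omega) (mul_mem_Dsub ?_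
      (choose_pow_mul_quadratic_mem (K := K) (p := p) (X := Y) e he _ ij.2))
    refine Submodule.sum_mem _ fun cd hcd => Dsub_mono ?_
      (mul_mem_Dsub (choose_mem_Dsub _ le_rfl) (choose_mem_Dsub _ le_rfl))
    exact (HasAntidiagonal.mem_antidiagonal.mp hcd).le
  have hfull : ∀ u ∈ U, full u ∈ Dsub K Y (k u) := fun u hu => by
    have := add_mem (Dsub_mono (Nat.sub_le _ 1) (hdiff u hu).1) (hmain u)
    rwa [sub_add_cancel] at this
  obtain ⟨-, -, hprod, hzero⟩ := prod_sub_prod_mem U full main k hfull (fun u _ => hmain u)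
    (fun u hu => (hdiff u hu).1) fun u hu => (hdiff u hu).2
  have heq : biMoment P Q a b (∏ u ∈ U, full u) = biMoment P Q a b (∏ u ∈ U, main u) := by
    rcases Nat.eq_zero_or_pos (d + d') with h | h
    · rw [hzero (hksum.trans h)]
    · rw [← sub_eq_zero, ← map_sub]
      exact hkill _ (hksum ▸ hprod) h
  have hlhs : ∑ g ∈ P, ∑ h ∈ Q, a g * b h * bmon X U k (g * h) =
      biMoment P Q a b (∏ u ∈ U, full u) := by
    show _ = ∑ ω : ↥(P ×ˢ Q), a ω.1.1 * b ω.1.2 * (∏ u ∈ U, full u) ω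
    simp only [Finset.prod_apply, full]
    rw [Finset.sum_coe_sort (P ×ˢ Q) (fun x : G × G =>
      a x.1 * b x.2 * ∏ u ∈ U, ((X u (x.1 * x.2)).choose (k u) : K)), sum_product]
    rfl
  -- expansion of the main term
  have hexp : (∏ u ∈ U, main u) = ∑ ij ∈ antidiagonal k,
      fun ω : ↥(P ×ˢ Q) => bmon X U ij.1 ω.1.1 * bmon X U ij.2 ω.1.2 := by
    funext ω
    simp only [Finset.prod_apply, Finset.sum_apply, main]
    rw [prod_sum]
    refine sum_bij' (fun q _ => (Finsupp.indicator U q, k - Finsupp.indicator U q))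
      (fun ij _ u _ => ij.1 u) (fun q hq => ?_) (fun ij hij => ?_) (fun q hq => ?_)
      (fun ij hij => ?_) fun q hq => ?_
    · refine HasAntidiagonal.mem_antidiagonal.mpr (add_tsub_cancel_of_le fun u => ?_)
      by_cases hu : u ∈ U
      · rw [Finsupp.indicator_of_mem hu]
        exact Nat.lt_succ_iff.mp (mem_range.mp (mem_pi.mp hq u hu))
      · rw [Finsupp.indicator_of_notMem hu]; exact Nat.zero_le _
    · refine mem_pi.mpr fun u hu => mem_range.mpr ?_
      have := DFunLike.congr_fun (HasAntidiagonal.mem_antidiagonal.mp hij) u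
      simp only [Finsupp.add_apply] at this
      omega
    · funext u hu
      exact Finsupp.indicator_of_mem hu q
    · have hadd := HasAntidiagonal.mem_antidiagonal.mp hij
      have e1 : Finsupp.indicator U (fun u _ => ij.1 u) = ij.1 := by
        ext u
        by_cases hu : u ∈ U
        · rw [Finsupp.indicator_of_mem hu]
        · rw [Finsupp.indicator_of_notMem hu]
          have := DFunLike.congr_fun hadd u
          simp only [Finsupp.add_apply, Finsupp.notMem_support_iff.mp (fun h => hu (hkU h))] at this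
          omega
      simp only [e1]
      exact Prod.ext rfl (by rw [← hadd, add_tsub_cancel_left])
    · rw [bmon, bmon, ← prod_mul_distrib, ← prod_attach U]
      refine prod_congr rfl fun u _ => ?_
      simp [Finsupp.indicator_of_mem u.2]
  have hrhs : biMoment P Q a b (∏ u ∈ U, main u) = (form a P d * form b Q d').coeff k := by
    rw [hexp, map_sum, MvPolynomial.coeff_mul]
    refine sum_congr rfl fun ij hij => ?_
    rw [biMoment_tensor, hcoeff, hcoeff]
    have hadd := HasAntidiagonal.mem_antidiagonal.mp hij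
    have h1 : ij.1.support ⊆ U ∧ ij.2.support ⊆ U := by
      constructor <;> intro u hu <;> refine hkU (Finsupp.mem_support_iff.mpr ?_) <;>
        rw [← hadd, Finsupp.add_apply] <;> have := Finsupp.mem_support_iff.mp hu <;> omega
    have h2 : U.sum ij.1 + U.sum ij.2 = d + d' := by
      rw [← hksum, ← hadd, ← sum_add_distrib]; rfl
    simp only [mem_finsuppAntidiag, h1.1, h1.2, and_true]
    rcases lt_trichotomy (U.sum ij.1) d with hlt | heq' | hgt
    · rw [hamin _ hlt _ (bmon_mem_Dsub U ij.1), zero_mul, if_neg hlt.ne, zero_mul]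
    · rw [if_pos heq', if_pos (by omega)]
    · rw [hbmin (U.sum ij.2) (by omega) _ (bmon_mem_Dsub U ij.2), mul_zero, if_neg hgt.ne',
        zero_mul]
  rw [hlhs, heq, hrhs, MvPolynomial.coeff_mul]
  exact hk

end Vale.Agent.P201.Congr
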