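import Vale.Agent.P201.Congr.FreeAut
import Vale.Agent.P201.Congr.Inner

/-!
# Congruence subgroups of outer automorphism groups of free groups

The rescaled cyclic Magnus coefficients give a lattice killed by inner automorphisms and only by
them.
-/

namespace Vale.Agent.P201.Congr

open MonoidAlgebra

variable {α : Type*}

/-- The cyclic coefficients of an element of the group algebra. -/
noncomputable def cycLin : QF α →ₗ[ℚ] (List α → ℚ) :=
  LinearMap.pi fun v => ∑ j ∈ Finset.range v.length, (LinearMap.proj (v.rotate j)).comp coe'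

lemma cycLin_apply (z : QF α) (v : List α) : cycLin z v = cyc (expand z) v := by
  simp [cycLin, cyc, expand]

lemma cycLin_mul_comm (y z : QF α) : cycLin (y * z) = cycLin (z * y) := by
  funext v
  rw [cycLin_apply, cycLin_apply, expand_mul, expand_mul, cyc_mul_comm]

/-- The rescaled cyclic coefficients. -/
noncomputable def rescaleCyc (q : ℕ) : QF α →+ (List α → ℚ) where
  toFun z v := (q : ℚ) ^ v.length * cycLin z v
  map_zero' := by funext v; simp
  map_add' a b := by funext v; simp [mul_add]

lemma rescaleCyc_eq_sum (q : ℕ) (z : QF α) (v : List α) :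
    rescaleCyc q z v = ∑ j ∈ Finset.range v.length, rescale q z (v.rotate j) := by
  show (q : ℚ) ^ v.length * cycLin z v = _
  rw [cycLin_apply, cyc, Finset.mul_sum]
  exact Finset.sum_congr rfl fun j _ => by simp [rescale]

lemma mono_append (w w' : List α) : mono (w ++ w') = mono w * mono w' := by simp [mono]

lemma cycLin_autAlg_mono_rotate (φ : MulAut (FreeGroup α)) (w : List α) (j : ℕ) :
    cycLin (autAlg φ (mono (w.rotate j))) = cycLin (autAlg φ (mono w)) := by
  rcases Nat.eq_zero_or_pos w.length with h | h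
  · rw [List.length_eq_zero_iff.mp h]; simp
  rw [← List.rotate_mod, List.rotate_eq_drop_append_take (Nat.mod_lt _ h).le, mono_append, map_mul,
    cycLin_mul_comm, ← map_mul, ← mono_append, List.take_append_drop]

/-- A functional invariant under rotations kills a vector with zero cyclic sums. -/
lemma sum_eq_zero_of_rotation (r T : List α → ℚ) (S : Finset (List α))
    (hS : ∀ w ∈ S, ∀ j, w.rotate j ∈ S) (hT : ∀ w j, T (w.rotate j) = T w) (hT0 : T [] = 0)
    (hr : ∀ w ∈ S, ∑ j ∈ Finset.range w.length, r (w.rotate j) = 0) :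
    ∑ w ∈ S, r w * T w = 0 := by
  classical
  rw [← Finset.sum_fiberwise_of_maps_to (g := List.length) (t := S.image List.length)
    fun w hw => Finset.mem_image_of_mem _ hw]
  refine Finset.sum_eq_zero fun n _ => ?_
  rcases Nat.eq_zero_or_pos n with rfl | hn
  · refine Finset.sum_eq_zero fun w hw => ?_
    rw [List.length_eq_zero_iff.mp (Finset.mem_filter.mp hw).2, hT0, mul_zero]
  set S' := S.filter fun w => w.length = n
  have hS' : ∀ w ∈ S', ∀ j, w.rotate j ∈ S' := fun w hw j => by
    obtain ⟨h1, h2⟩ := Finset.mem_filter.mp hw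
    exact Finset.mem_filter.mpr ⟨hS w h1 j, by rw [List.length_rotate, h2]⟩
  have hj : ∀ j, ∑ w ∈ S', r (w.rotate j) * T w = ∑ w ∈ S', r w * T w := by
    intro j
    have hinj : ∀ w ∈ S', (w.rotate j).rotate (n - j % n) = w := fun w hw => by
      have hlen : w.length = n := (Finset.mem_filter.mp hw).2
      rw [List.rotate_rotate, ← List.rotate_mod, hlen]
      have h0 : (j + (n - j % n)) % n = 0 := by
        rw [Nat.add_mod, show (n - j % n) % n = (n - j % n) % n from rfl]
        have := Nat.mod_lt j hn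
        rcases Nat.eq_zero_or_pos (j % n) with h | h
        · simp [h]
        · rw [Nat.mod_eq_of_lt (show n - j % n < n by omega),
            show j % n + (n - j % n) = n by omega, Nat.mod_self]
      rw [h0, List.rotate_zero]
    refine Finset.sum_bij (fun w _ => w.rotate j) (fun w hw => hS' w hw j)
      (fun w hw w' hw' h => by rw [← hinj w hw, ← hinj w' hw']; exact congrArg (List.rotate · _) h)
      (fun w hw => ⟨w.rotate (n - j % n), hS' w hw _, ?_⟩) fun w _ => by rw [hT]
    have hlen : w.length = n := (Finset.mem_filter.mp hw).2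
    have := hinj w hw
    rw [List.rotate_rotate] at this ⊢
    rwa [Nat.add_comm]
  have hkey : (n : ℚ) * ∑ w ∈ S', r w * T w = 0 := by
    calc (n : ℚ) * ∑ w ∈ S', r w * T w = ∑ j ∈ Finset.range n, ∑ w ∈ S', r (w.rotate j) * T w := by
          rw [Finset.sum_congr rfl fun j _ => hj j, Finset.sum_const, Finset.card_range, nsmul_eq_mul]
      _ = ∑ w ∈ S', (∑ j ∈ Finset.range w.length, r (w.rotate j)) * T w := by
          rw [Finset.sum_comm]
          exact Finset.sum_congr rfl fun w hw => by
            rw [Finset.sum_mul, (Finset.mem_filter.mp hw).2]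
      _ = 0 := Finset.sum_eq_zero fun w hw => by rw [hr w (Finset.mem_filter.mp hw).1, zero_mul]
  exact (mul_eq_zero.mp hkey).resolve_left (Nat.cast_ne_zero.mpr hn.ne')

/-- The kernel of the cyclic coefficients is invariant. -/
lemma cycLin_autAlg_eq_zero (φ : MulAut (FreeGroup α)) {z : QF α} (hz : cycLin z = 0) :
    cycLin (autAlg φ z) = 0 := by
  classical
  funext v
  obtain ⟨r, hsupp, hmem, hr⟩ := exists_mono_approx z (v.length + 1)
  have h0 : ∀ u : List α, u.length < v.length + 1 →
      (expand (autAlg φ z)).co u = (expand (autAlg φ (Finsupp.linearCombination ℚ mono r))).co u :=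
    fun u hu => by
      have h := expand_eq_zero_of_mem _ _ (autAlg_mem_aug φ _ _ hmem) u hu
      rwa [map_sub, expand_sub, Ser.co_sub, sub_eq_zero] at h
  have hv : cycLin (autAlg φ z) v = cycLin (autAlg φ (Finsupp.linearCombination ℚ mono r)) v := by
    rw [cycLin_apply, cycLin_apply]
    exact Finset.sum_congr rfl fun j _ => h0 _ (by simp)
  let S := r.support.biUnion fun w => (Finset.range (w.length + 1)).image fun j => w.rotate j
  have hsub : r.support ⊆ S := fun w hw =>
    Finset.mem_biUnion.mpr ⟨w, hw, Finset.mem_image.mpr ⟨0, by simp, List.rotate_zero w⟩⟩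
  have hS : ∀ w ∈ S, ∀ j, w.rotate j ∈ S := by
    intro w hw j
    obtain ⟨w₀, hw₀, hw'⟩ := Finset.mem_biUnion.mp hw
    obtain ⟨i, -, rfl⟩ := Finset.mem_image.mp hw'
    rcases Nat.eq_zero_or_pos w₀.length with h | h
    · refine Finset.mem_biUnion.mpr ⟨w₀, hw₀, Finset.mem_image.mpr ⟨0, by simp, ?_⟩⟩
      rw [List.length_eq_zero_iff.mp h]
      simp
    · refine Finset.mem_biUnion.mpr ⟨w₀, hw₀, Finset.mem_image.mpr ⟨(i + j) % w₀.length,
        Finset.mem_range.mpr ((Nat.mod_lt _ h).trans (Nat.lt_succ_self _)), ?_⟩⟩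
      rw [List.rotate_mod, List.rotate_rotate]
  rw [hv, Finsupp.linearCombination_apply, Finsupp.sum_of_support_subset _ hsub _ (by simp),
    map_sum, map_sum, Finset.sum_apply]
  simp only [map_smul, Pi.smul_apply, smul_eq_mul, Pi.zero_apply]
  refine sum_eq_zero_of_rotation r (fun w => cycLin (autAlg φ (mono w)) v) S hS
    (fun w j => congrFun (cycLin_autAlg_mono_rotate φ w j) v) ?_ fun w hw => ?_
  · show cycLin (autAlg φ (mono ([] : List α))) v = 0
    rw [show mono ([] : List α) = 1 from rfl, map_one, cycLin_apply, expand_one, cyc]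
    refine Finset.sum_eq_zero fun j hj => ?_
    cases hv' : v.rotate j with
    | nil =>
      rw [List.rotate_eq_nil_iff] at hv'
      simp [hv'] at hj
    | cons b u => simp
  · obtain ⟨w₀, hw₀, hw'⟩ := Finset.mem_biUnion.mp hw
    obtain ⟨i, -, rfl⟩ := Finset.mem_image.mp hw'
    have hlen := hsupp w₀ hw₀
    have h := congrFun hz (w₀.rotate i)
    rw [cycLin_apply, cyc, Pi.zero_apply] at h
    rw [← h]
    exact Finset.sum_congr rfl fun j _ => hr _ (by simpa using hlen)

/-- **Congruence subgroups of outer automorphism groups of free groups.** -/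
theorem noZeroDivisors_freeGroup_out.{u} {p e : ℕ} [Fact p.Prime] (he : 2 < p ^ e)
    (H : Subgroup (MulAut (FreeGroup α))) (hH : ∀ φ ∈ H, ActsTriviallyMod (p ^ e) φ)
    {G : Type*} [Group G] (π : H →* G) (hπ : Function.Surjective π)
    (hker : ∀ φ : H, π φ = 1 ↔ ∃ c, (φ : MulAut (FreeGroup α)) = MulAut.conj c)
    (K : Type u) [Field K] (hK : CharP K p ∨ CharZero K) :
    NoZeroDivisors (MonoidAlgebra K G) := by
  classical
  have hq : p ^ e ≠ 0 := by omega
  have hp : (p : ℚ) ≠ 0 := Nat.cast_ne_zero.mpr (Fact.out : p.Prime).ne_zero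
  let L : AddSubgroup (List α → ℚ) := (integralPart α (p ^ e)).map (rescaleCyc (p ^ e))
  have hint : ∀ m ∈ L, ∀ v, ∃ n : ℤ, m v = n := by
    rintro _ ⟨z, hz, rfl⟩ v
    rw [rescaleCyc_eq_sum]
    choose n hn using fun j => hz (v.rotate j)
    exact ⟨∑ j ∈ Finset.range v.length, n j, by
      rw [Int.cast_sum]; exact Finset.sum_congr rfl fun j _ => hn j⟩
  have hwd : ∀ (φ : MulAut (FreeGroup α)) (z z' : QF α),
      rescaleCyc (p ^ e) z = rescaleCyc (p ^ e) z' →
      rescaleCyc (p ^ e) (autAlg φ z) = rescaleCyc (p ^ e) (autAlg φ z') := by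
    intro φ z z' h
    have h1 : cycLin (z - z') = 0 := by
      funext v
      have := congrFun h v
      simp only [rescaleCyc, AddMonoidHom.coe_mk, ZeroHom.coe_mk] at this
      rw [map_sub, Pi.sub_apply, Pi.zero_apply, sub_eq_zero]
      exact mul_left_cancel₀ (pow_ne_zero _ (Nat.cast_ne_zero.mpr hq)) this
    have h2 := cycLin_autAlg_eq_zero φ h1
    rw [map_sub, map_sub, sub_eq_zero] at h2
    funext v
    simp [rescaleCyc, h2]
  choose pre hpre hpre' using fun m : L => AddSubgroup.mem_map.mp m.2
  choose lift hlift using hπ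
  let act : H → L → L := fun φ m => ⟨rescaleCyc (p ^ e) (autAlg (φ : MulAut (FreeGroup α)) (pre m)),
    _, autAlg_mem_integralPart _ (hH _ φ.2) (hpre m), rfl⟩
  have hact : ∀ (φ : H) (m : L) (z : QF α), rescaleCyc (p ^ e) z = (m : List α → ℚ) →
      ((act φ m : L) : List α → ℚ) = rescaleCyc (p ^ e) (autAlg (φ : MulAut (FreeGroup α)) z) :=
    fun φ m z hz => hwd _ _ _ ((hpre' m).trans hz.symm)
  have hinner : ∀ φ : H, π φ = 1 → ∀ z, rescaleCyc (p ^ e) (autAlg (φ : MulAut (FreeGroup α)) z) =
      rescaleCyc (p ^ e) z := by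
    intro φ hφ z
    obtain ⟨c, hc⟩ := (hker φ).mp hφ
    have : autAlg (φ : MulAut (FreeGroup α)) z = single c 1 * z * single c⁻¹ 1 := by
      induction z using MonoidAlgebra.induction_linear with
      | zero => simp
      | add a b ha hb => rw [map_add, ha, hb, mul_add, add_mul]
      | single g r => simp [autAlg_single, hc, single_mul_single]
    funext v
    have h : cycLin (autAlg (φ : MulAut (FreeGroup α)) z) = cycLin z := by
      rw [this, cycLin_mul_comm, ← mul_assoc, single_mul_single, inv_mul_cancel, mul_one,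
        ← MonoidAlgebra.one_def, one_mul]
    simp [rescaleCyc, h]
  have hwdG : ∀ φ ψ : H, π φ = π ψ → act φ = act ψ := by
    intro φ ψ h
    have h1 : π (ψ⁻¹ * φ) = 1 := by rw [map_mul, map_inv, h, inv_mul_cancel]
    funext m
    refine Subtype.ext ?_
    rw [hact φ m _ (hpre' m), hact ψ m _ (hpre' m)]
    have h2 : rescaleCyc (p ^ e) (autAlg ((ψ⁻¹ * φ : H) : MulAut (FreeGroup α)) (pre m)) =
        rescaleCyc (p ^ e) (pre m) := hinner _ h1 _
    have h3 := hwd (ψ : MulAut (FreeGroup α)) _ _ h2
    rw [← autAlg_mul, Subgroup.coe_mul, Subgroup.coe_inv, mul_inv_cancel_left] at h3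
    exact h3
  letI : DistribMulAction G L :=
    { smul := fun g => act (lift g)
      one_smul := fun m => Subtype.ext (by
        show ((act (lift 1) m : L) : List α → ℚ) = m
        rw [hwdG (lift 1) 1 (by rw [hlift, map_one]), hact 1 m _ (hpre' m), Subgroup.coe_one,
          autAlg_one, hpre'])
      mul_smul := fun g g' m => Subtype.ext (by
        show ((act (lift (g * g')) m : L) : List α → ℚ) = (act (lift g) (act (lift g') m) : L)
        rw [hwdG (lift (g * g')) (lift g * lift g') (by rw [hlift, map_mul, hlift, hlift]),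
          hact _ m _ (hpre' m), Subgroup.coe_mul, autAlg_mul,
          hact _ (act (lift g') m) _ (hact _ m _ (hpre' m)).symm])
      smul_zero := fun g => Subtype.ext (by
        show ((act (lift g) 0 : L) : List α → ℚ) = ((0 : L) : List α → ℚ)
        rw [hact _ 0 0 (by simp)]
        simp)
      smul_add := fun g m m' => Subtype.ext (by
        show ((act (lift g) (m + m') : L) : List α → ℚ) =
          (act (lift g) m : L) + ((act (lift g) m' : L) : List α → ℚ)
        rw [hact _ (m + m') (pre m + pre m') (by simp [hpre']), hact _ m _ (hpre' m),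
          hact _ m' _ (hpre' m'), map_add, map_add]) }
  refine noZeroDivisors_of_congruence (p := p) (e := e) (G := G) (M := L) he (fun m hm => ?_)
    (fun m hm => ?_) (fun g m => ?_) (fun g hg => ?_) K hK
  · refine Subtype.ext (funext fun v => ?_)
    have := congrFun (congrArg Subtype.val hm) v
    simp only [AddSubgroup.coe_nsmul, nsmul_eq_mul, Pi.mul_apply, Pi.natCast_apply,
      AddSubgroup.coe_zero, Pi.zero_apply] at this
    exact (mul_eq_zero.mp this).resolve_left hp
  · refine Subtype.ext (funext fun v => ?_)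
    obtain ⟨n, hn⟩ := hint _ m.2 v
    obtain ⟨y, hy⟩ := hm n.natAbs
    obtain ⟨k, hk⟩ := hint _ y.2 v
    have h1 := congrFun (congrArg Subtype.val hy) v
    simp only [AddSubgroup.coe_nsmul, nsmul_eq_mul, Pi.mul_apply, Pi.natCast_apply,
      AddSubgroup.coe_zero, Pi.zero_apply] at h1 ⊢
    rw [hn, hk] at h1
    have h2 : n = ((p ^ n.natAbs : ℕ) : ℤ) * k := by exact_mod_cast h1
    have hdvd : p ^ n.natAbs ∣ n.natAbs := Int.natCast_dvd.mp (Dvd.intro k h2.symm)
    have hn0 : n.natAbs = 0 := by
      by_contra h0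
      have h4 := Nat.le_of_dvd (Nat.pos_of_ne_zero h0) hdvd
      have h5 := Nat.lt_pow_self (n := n.natAbs) (Fact.out : p.Prime).one_lt
      omega
    rw [hn, Int.natAbs_eq_zero.mp hn0, Int.cast_zero]
  · -- congruence
    let φ : MulAut (FreeGroup α) := (lift g : H)
    let y : QF α := (((p ^ e : ℕ) : ℚ))⁻¹ • (autAlg φ (pre m) - pre m)
    have hy : ∀ v, rescaleCyc (p ^ e) y v = (((p ^ e : ℕ) : ℚ))⁻¹ *
        (rescaleCyc (p ^ e) (autAlg φ (pre m)) v - rescaleCyc (p ^ e) (pre m) v) := fun v => by
      simp [rescaleCyc, y]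
      ring
    refine ⟨⟨rescaleCyc (p ^ e) y, y, fun v => ?_, rfl⟩, ?_⟩
    · obtain ⟨n, hn⟩ := rescale_autAlg φ (hH _ (lift g).2) _ (hpre m) v
      simp only [rescale, AddMonoidHom.coe_mk, ZeroHom.coe_mk] at hn
      refine ⟨n, ?_⟩
      simp only [y, expand_smul, expand_sub, Ser.sc, Ser.co_sub]
      rw [mul_left_comm, mul_sub, hn, inv_mul_cancel_left₀ (Nat.cast_ne_zero.mpr hq)]
    · refine Subtype.ext (funext fun v => ?_)
      simp only [AddSubgroup.coe_sub, AddSubgroup.coe_nsmul, nsmul_eq_mul, Pi.sub_apply,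
        Pi.mul_apply, Pi.natCast_apply]
      rw [hy, mul_inv_cancel_left₀ (Nat.cast_ne_zero.mpr hq), hpre']
      rfl
  · -- faithfulness
    rw [← hlift g]
    refine (hker _).mpr (inner_of_traceEq _ fun x v => ?_)
    have hz : dif x ∈ integralPart α (p ^ e) := fun u => by
      obtain ⟨n, hn⟩ := (magnus_props x).2.sub Ser.Integral.one u
      exact ⟨((p ^ e) ^ u.length : ℕ) * n, by rw [expand_dif, hn]; push_cast; ring⟩
    let m : L := ⟨_, _, hz, rfl⟩
    have h1 := congrArg Subtype.val (hg m)
    rw [show ((g • m : L) : List α → ℚ) = _ from hact (lift g) m _ rfl, autAlg_dif] at h1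
    have h2 := congrFun h1 v
    simp only [m, rescaleCyc, AddMonoidHom.coe_mk, ZeroHom.coe_mk, cycLin_apply, expand_dif, cyc,
      Ser.co_sub, Finset.sum_sub_distrib] at h2
    exact sub_left_injective (mul_left_cancel₀ (pow_ne_zero _ (Nat.cast_ne_zero.mpr hq)) h2)

end Vale.Agent.P201.Congr
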