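import Mathlib

/-!
# Power series in non-commuting letters
-/

namespace Vale.Agent.P201.Congr

open List

/-- Series in non-commuting letters, as functions of words. -/
@[ext] structure Ser (α : Type*) where
  /-- the coefficient of a word -/
  co : List α → ℚ

namespace Ser

variable {α : Type*}

/-- The convolution of two series, word by word. -/
def conv : (List α → ℚ) → (List α → ℚ) → List α → ℚ
  | f, g, [] => f [] * g []
  | f, g, a :: v => f [] * g (a :: v) + conv (fun t => f (a :: t)) g v

lemma conv_zero_left (g : List α → ℚ) : ∀ v, conv (fun _ => 0) g v = 0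
  | [] => by simp [conv]
  | a :: v => by simp [conv, conv_zero_left g v]

lemma conv_zero_right : ∀ (f : List α → ℚ) v, conv f (fun _ => 0) v = 0
  | f, [] => by simp [conv]
  | f, a :: v => by simp [conv, conv_zero_right _ v]

lemma conv_add_left : ∀ (f f' g : List α → ℚ) v,
    conv (fun t => f t + f' t) g v = conv f g v + conv f' g v
  | f, f', g, [] => by simp [conv]; ring
  | f, f', g, a :: v => by
    simp only [conv, conv_add_left (fun t => f (a :: t)) (fun t => f' (a :: t)) g v]; ring

lemma conv_add_right : ∀ (f g g' : List α → ℚ) v,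
    conv f (fun t => g t + g' t) v = conv f g v + conv f g' v
  | f, g, g', [] => by simp [conv]; ring
  | f, g, g', a :: v => by
    simp only [conv, conv_add_right (fun t => f (a :: t)) g g' v]; ring

lemma conv_smul_left (r : ℚ) : ∀ (f g : List α → ℚ) v,
    conv (fun t => r * f t) g v = r * conv f g v
  | f, g, [] => by simp [conv]; ring
  | f, g, a :: v => by simp only [conv, conv_smul_left r (fun t => f (a :: t)) g v]; ring

lemma conv_assoc : ∀ (f g h : List α → ℚ) v, conv (conv f g) h v = conv f (conv g h) v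
  | f, g, h, [] => by simp [conv]; ring
  | f, g, h, a :: v => by
    simp only [conv]
    rw [conv_add_left, conv_smul_left, conv_assoc (fun t => f (a :: t)) g h v]
    ring

/-- The unit series. -/
def oneFun : List α → ℚ
  | [] => 1
  | _ :: _ => 0

lemma conv_one_left : ∀ (g : List α → ℚ) v, conv oneFun g v = g v
  | g, [] => by simp [conv, oneFun]
  | g, a :: v => by simp [conv, oneFun, conv_zero_left]

lemma conv_one_right : ∀ (f : List α → ℚ) v, conv f oneFun v = f v
  | f, [] => by simp [conv, oneFun]
  | f, a :: v => by simp [conv, oneFun, conv_one_right _ v]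

instance : Zero (Ser α) := ⟨⟨fun _ => 0⟩⟩
instance : One (Ser α) := ⟨⟨oneFun⟩⟩
instance : Add (Ser α) := ⟨fun f g => ⟨fun v => f.co v + g.co v⟩⟩
instance : Neg (Ser α) := ⟨fun f => ⟨fun v => -f.co v⟩⟩
instance : Mul (Ser α) := ⟨fun f g => ⟨conv f.co g.co⟩⟩

@[simp] lemma co_zero (v : List α) : (0 : Ser α).co v = 0 := rfl
@[simp] lemma co_add (f g : Ser α) (v : List α) : (f + g).co v = f.co v + g.co v := rfl
@[simp] lemma co_neg (f : Ser α) (v : List α) : (-f).co v = -f.co v := rfl
@[simp] lemma co_one_nil : (1 : Ser α).co [] = 1 := rfl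
@[simp] lemma co_one_cons (a : α) (v : List α) : (1 : Ser α).co (a :: v) = 0 := rfl
lemma co_mul (f g : Ser α) (v : List α) : (f * g).co v = conv f.co g.co v := rfl

instance : Ring (Ser α) :=
  Ring.ofMinimalAxioms (fun f g h => Ser.ext (funext fun v => add_assoc _ _ _))
    (fun f => Ser.ext (funext fun v => zero_add _))
    (fun f => Ser.ext (funext fun v => neg_add_cancel _))
    (fun f g h => Ser.ext (funext fun v => conv_assoc _ _ _ v))
    (fun f => Ser.ext (funext fun v => conv_one_left _ v))
    (fun f => Ser.ext (funext fun v => conv_one_right _ v))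
    (fun f g h => Ser.ext (funext fun v => conv_add_right _ _ _ v))
    (fun f g h => Ser.ext (funext fun v => conv_add_left _ _ _ v))

@[simp] lemma co_sub (f g : Ser α) (v : List α) : (f - g).co v = f.co v - g.co v :=
  (sub_eq_add_neg (f.co v) (g.co v)).symm

lemma co_mul_nil (f g : Ser α) : (f * g).co [] = f.co [] * g.co [] := rfl

lemma co_mul_cons (f g : Ser α) (a : α) (v : List α) :
    (f * g).co (a :: v) = f.co [] * g.co (a :: v) + ((⟨fun t => f.co (a :: t)⟩ : Ser α) * g).co v :=
  rfl

lemma co_mul_singleton (f g : Ser α) (a : α) :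
    (f * g).co [a] = f.co [] * g.co [a] + f.co [a] * g.co [] := rfl

/-- Scalar multiples. -/
def sc (r : ℚ) (f : Ser α) : Ser α := ⟨fun v => r * f.co v⟩

lemma sc_mul (r : ℚ) (f g : Ser α) : sc r f * g = sc r (f * g) :=
  Ser.ext (funext fun v => conv_smul_left r _ _ v)

/-- The series with integer coefficients. -/
def Integral (f : Ser α) : Prop := ∀ v, ∃ n : ℤ, f.co v = n

lemma Integral.one : Integral (1 : Ser α) := fun v => by
  cases v
  · exact ⟨1, by simp⟩
  · exact ⟨0, by simp⟩

lemma Integral.mul {f g : Ser α} (hf : Integral f) (hg : Integral g) : Integral (f * g) := by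
  intro v
  induction v generalizing f with
  | nil =>
    obtain ⟨m, hm⟩ := hf []
    obtain ⟨n, hn⟩ := hg []
    exact ⟨m * n, by rw [co_mul_nil, hm, hn]; push_cast; ring⟩
  | cons a v ih =>
    obtain ⟨m, hm⟩ := hf []
    obtain ⟨n, hn⟩ := hg (a :: v)
    obtain ⟨l, hl⟩ := ih (f := ⟨fun t => f.co (a :: t)⟩) fun t => hf (a :: t)
    exact ⟨m * n + l, by rw [co_mul_cons, hm, hn, hl]; push_cast; ring⟩

lemma Integral.sub {f g : Ser α} (hf : Integral f) (hg : Integral g) : Integral (f - g) := by
  intro v
  obtain ⟨m, hm⟩ := hf v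
  obtain ⟨n, hn⟩ := hg v
  exact ⟨m - n, by rw [co_sub, hm, hn]; push_cast; ring⟩

/-- Multiplying by a series vanishing below length `k`. -/
lemma mul_eq_zero_of_length (f g : Ser α) (k : ℕ) (hg : ∀ v, v.length < k → g.co v = 0) :
    ∀ v, v.length < k → (f * g).co v = 0 := by
  intro v
  induction v generalizing f with
  | nil => intro h; rw [co_mul_nil, hg [] h, mul_zero]
  | cons a v ih =>
    intro h
    rw [co_mul_cons, hg _ h, mul_zero, zero_add]
    exact ih ⟨fun t => f.co (a :: t)⟩ (Nat.lt_of_succ_lt h)

/-- The lowest part of a product. -/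
lemma mul_apply_of_length (f g : Ser α) (k : ℕ) (hg : ∀ v, v.length < k → g.co v = 0)
    (v : List α) (hv : v.length = k) : (f * g).co v = f.co [] * g.co v := by
  cases v with
  | nil => rfl
  | cons a v =>
    rw [co_mul_cons, mul_eq_zero_of_length _ g k hg v (by simp at hv; omega), add_zero]

/-- The series supported on words in the one letter `a`. -/
def OnlyLetter (a : α) (f : Ser α) : Prop := ∀ v, (∃ b ∈ v, b ≠ a) → f.co v = 0

lemma OnlyLetter.mul {a : α} {f g : Ser α} (hf : OnlyLetter a f) (hg : OnlyLetter a g) :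
    OnlyLetter a (f * g) := by
  intro v
  induction v generalizing f with
  | nil => rintro ⟨b, hb, -⟩; simp at hb
  | cons c v ih =>
    rintro ⟨b, hb, hne⟩
    rw [co_mul_cons, hg _ ⟨b, hb, hne⟩, mul_zero, zero_add]
    by_cases hc : c = a
    · refine ih (f := ⟨fun t => f.co (c :: t)⟩) (fun t ⟨b', hb', hne'⟩ => hf _ ⟨b', by simp [hb'], hne'⟩) ?_
      rcases List.mem_cons.mp hb with rfl | hb
      · exact absurd hc hne
      · exact ⟨b, hb, hne⟩
    · have : (⟨fun t => f.co (c :: t)⟩ : Ser α) = 0 :=
        Ser.ext (funext fun t => hf _ ⟨c, by simp, hc⟩)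
      rw [this, zero_mul, co_zero]

/-- Left multiplication by a series in one letter. -/
lemma mul_other_letter {a : α} {f : Ser α} (hf : OnlyLetter a f) (g : Ser α) (v : List α)
    (hv : v.head? ≠ some a) : (f * g).co v = f.co [] * g.co v := by
  cases v with
  | nil => rfl
  | cons c v =>
    have hc : c ≠ a := fun h => hv (by simp [h])
    have : (⟨fun t => f.co (c :: t)⟩ : Ser α) = 0 :=
      Ser.ext (funext fun t => hf _ ⟨c, by simp, hc⟩)
    rw [co_mul_cons, this, zero_mul, co_zero, add_zero]

end Ser

end Vale.Agent.P201.Congr
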